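import Vale.Agent.P092.H21.RowM
import Vale.Agent.P092.H958.AmpD

/-!
P092 (helper458), all `t`: `MsF` for the multiplication operators of leg 1, any cocycle datum (any
source group), any honest family.
-/

set_option linter.all false

open scoped InnerProductSpace ENNReal
open Filter Topology ContinuousLinearMap MeasureTheory

namespace Vale.Agent.P092.H458.HalfT

open Vale.Agent.P092.SD Vale.Agent.P092.SR
open Vale.Agent.P092.H859.CL (st)
open Vale.Agent.P092.H790 (CData)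
open Vale.Agent.P092.H21 (Hon mT WT)

variable {D Γ ι ι' ℋ : Type} [Group D] [Group Γ] [Countable Γ] [Fintype ι] [Fintype ι']
  [NormedAddCommGroup ℋ] [InnerProductSpace ℂ ℋ] [CompleteSpace ℋ]
  {V R₁ R₂ : Γ →* (ℋ →L[ℂ] ℋ)} {ξ : ι → ℋ} {ξ' : ι' → ℋ} (d : CData D Γ)
  (hT : Tri V R₁ R₂ ξ) (hh : Hon R₁ R₂ ξ) (hT' : Tri R₁ V R₂ ξ')
  (hΓ : ∀ g : Γ, g ≠ 1 → Set.Infinite {y : Γ | ∃ h, y = h * g * h⁻¹})

include hh hT' hΓ in
/-- **`MsF`**, any source group. -/
theorem msF_E {c : ℂ} (hc : c ≠ 0) :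
    MsF (H34.Ind.lam d R₁) (WT d R₂) (fun i => (Lp.const 2 d.μ (c • ξ i) : Lp ℋ 2 d.μ))
      (st (mT d hT)) where
  adj := (H21.fn_T d hT hh).prj.adj
  inf := (H21.fn_T d hT hh).prj.inter
  compl := (H21.fn_T d hT hh).prj.compl
  cm := fun S w hw => H21.cm_T d hT hh hΓ hT' S w hw
  cov := H21.cov_T d hT hh hΓ hT'
  om := H21.om_T d hT hh c
  fin := fun η ε hε => H21.fin_T d hT hh η hε
  cyc := fun η hη => H21.cyc_T d hT hh hc hη

end Vale.Agent.P092.H458.HalfT
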