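import Vale.Agent.P092.H458.T.Wq

/-!
P092 (helper458) [T-HON]: the honest Parseval family of the `t`-model.
-/

set_option linter.all false

open scoped InnerProductSpace ENNReal
open Filter Topology ContinuousLinearMap
open Vale.Agent.P092.H160 Vale.Agent.P092.H103 Vale.Agent.P092.H962

namespace Vale.Agent.P092.H458.Hon

section main

variable {Γ Λ I K : Type} [Group Γ] [Group Λ] [Fintype I] [Fintype K]
  {α : Γ → (Ell2 (I × Λ) →L[ℂ] Ell2 (I × Λ))} {γ : Γ → (Ell2 (K × Λ) →L[ℂ] Ell2 (K × Λ))}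
  (hα : AF α) (hγ : AF γ)

/-- the honest vectors `b g ⊗ ζ` -/
noncomputable def xv (α : Γ → (Ell2 (I × Λ) →L[ℂ] Ell2 (I × Λ))) (g : Γ) (ζ : Ell2 (K × Λ)) :
    Ell2 (I × ((I × Λ) × (K × Λ))) :=
  rei (eA I (I × Λ) (K × Λ)).symm (tv (bb α g) ζ)

theorem eA_xv (g : Γ) (ζ : Ell2 (K × Λ)) :
    rei (eA I (I × Λ) (K × Λ)) (xv α g ζ) = tv (bb α g) ζ := rei_self_symm _ _

theorem inner_xv [DecidableEq Γ] (hα : AF α) (g g' : Γ) (ζ ζ' : Ell2 (K × Λ)) :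
    ⟪xv α g ζ, xv α g' ζ'⟫_ℂ = if g = g' then ⟪ζ, ζ'⟫_ℂ else 0 := by
  rw [← inner_eA, eA_xv, eA_xv, inner_tv, bb_inner hα]
  split_ifs
  · rw [one_mul]
  · rw [zero_mul]

theorem R1_xv (hα : AF α) (g h : Γ) (ζ : Ell2 (K × Λ)) :
    R1T I K (α g) (xv α h ζ) = xv α (g * h) ζ := by
  apply eA_inj
  rw [eA_R1T, eA_xv, eA_xv, tens_tv, bb_R hα]
  rfl

theorem R2_xv (h : Γ) (z : Ell2 (K × Λ) →L[ℂ] Ell2 (K × Λ)) (ζ : Ell2 (K × Λ)) :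
    R2T I I z (xv α h ζ) = xv α h (JT z ζ) := by
  apply eA_inj
  rw [eA_R2T, eA_xv, eA_xv, tens_tv]
  rfl

theorem L1_xv (hα : AF α) (h : Γ) (ζ : Ell2 (K × Λ)) :
    L1 I K (α 1) (xv α h ζ) = xv α h ζ := by
  apply eA_inj
  rw [eA_L1, eA_xv, tens_tv, bb_L hα]
  rfl

theorem tens_P (v : Ell2 (I × ((I × Λ) × (K × Λ)))) :
    tens (Lm I (α 1) * Rm I (α 1)) (JT (γ 1)) (rei (eA I (I × Λ) (K × Λ)) v) =
      rei (eA I (I × Λ) (K × Λ)) (L1 I K (α 1) (R1T I K (α 1) (R2T I I (γ 1) v))) := by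
  have e1 : tens (Lm I (α 1) * Rm I (α 1)) (JT (γ 1)) =
      tens (Lm I (α 1)) 1 * (tens (Rm I (α 1)) 1 * tens 1 (JT (γ 1))) := by
    rw [← tens_mul, ← tens_mul, mul_one, one_mul, one_mul]
  rw [e1, mul_ap, mul_ap, eA_L1, eA_R1T, eA_R2T]

theorem inner_w (w : Ell2 (I × ((I × Λ) × (K × Λ))) →L[ℂ] Ell2 (I × ((I × Λ) × (K × Λ))))
    (g : Γ) (ζ : Ell2 (K × Λ)) (v : Ell2 (I × ((I × Λ) × (K × Λ)))) :
    ⟪adjoint w (xv α g ζ), v⟫_ℂ = ⟪tv (bb α g) ζ, rei (eA I (I × Λ) (K × Λ)) (w v)⟫_ℂ := by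
  rw [adjoint_inner_left, ← inner_eA, eA_xv]

/-- the index bijection -/
def eI (X Γ : Type) : X × Γ × Γ ≃ Γ × (X × Γ) where
  toFun p := (p.2.1, (p.1, p.2.2))
  invFun q := (q.2.1, (q.1, q.2.2))
  left_inv p := rfl
  right_inv q := rfl

theorem frame_w (hα : AF α) {m : ℕ} {ζ : Fin m → Ell2 (K × Λ)}
    (hζ : ∀ u, HasSum (fun x : Fin m × Γ => ‖⟪JT (γ x.2) (ζ x.1), u⟫_ℂ‖ ^ 2) (‖JT (γ 1) u‖ ^ 2))
    {w : Ell2 (I × ((I × Λ) × (K × Λ))) →L[ℂ] Ell2 (I × ((I × Λ) × (K × Λ)))}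
    {v : Ell2 (I × ((I × Λ) × (K × Λ)))}
    (h1 : L1 I K (α 1) (R1T I K (α 1) (R2T I I (γ 1) (w v))) = w v) (h2 : adjoint w (w v) = v) :
    HasSum (fun p : Fin m × Γ × Γ => ‖⟪adjoint w (xv α p.2.1 (JT (γ p.2.2) (ζ p.1))), v⟫_ℂ‖ ^ 2)
      (‖v‖ ^ 2) := by
  have h3 := frame_tens (fun g : Γ => bb α g) (fun x : Fin m × Γ => JT (γ x.2) (ζ x.1))
      (Lm I (α 1) * Rm I (α 1)) (JT (γ 1)) (bb_frame hα) hζ
      (rei (eA I (I × Λ) (K × Λ)) (w v))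
  rw [tens_P, h1, norm_rei] at h3
  have h4 : ‖w v‖ ^ 2 = ‖v‖ ^ 2 := by
    have e2 : ⟪w v, w v⟫_ℂ = ⟪v, v⟫_ℂ := by
      rw [← adjoint_inner_right, h2]
    rw [inner_self_eq_norm_sq_to_K, inner_self_eq_norm_sq_to_K] at e2
    exact_mod_cast e2
  rw [h4] at h3
  refine ((eI (Fin m) Γ).hasSum_iff.mpr h3).congr_fun ?_ |> id
  intro p
  exact congrArg (fun z : ℂ => ‖z‖ ^ 2) (inner_w w p.2.1 (JT (γ p.2.2) (ζ p.1)) v)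

section wfacts

variable {w : Ell2 (I × ((I × Λ) × (K × Λ))) →L[ℂ] Ell2 (I × ((I × Λ) × (K × Λ)))}

theorem w_R1 (hw : Eq.Cc (Sg I I K Λ) w) (hα : AF α) (g : Γ)
    (v : Ell2 (I × ((I × Λ) × (K × Λ)))) :
    w (R1T I K (α g) v) = R1T I K (α g) (w v) :=
  congrArg (fun T : Ell2 (I × ((I × Λ) × (K × Λ))) →L[ℂ] Ell2 (I × ((I × Λ) × (K × Λ))) => T v)
    (hw _ (Or.inl ⟨_, hα.comm g, rfl⟩))

theorem w_R2 (hw : Eq.Cc (Sg I I K Λ) w) (hγ : AF γ) (g : Γ)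
    (v : Ell2 (I × ((I × Λ) × (K × Λ)))) :
    w (R2T I I (γ g) v) = R2T I I (γ g) (w v) :=
  congrArg (fun T : Ell2 (I × ((I × Λ) × (K × Λ))) →L[ℂ] Ell2 (I × ((I × Λ) × (K × Λ))) => T v)
    (hw _ (Or.inr ⟨_, hγ.comm g, rfl⟩))

theorem w_xv (hw : Eq.Cc (Sg I I K Λ) (adjoint w)) (hα : AF α) (hγ : AF γ) (g g' h : Γ)
    (ζ : Ell2 (K × Λ)) :
    R1T I K (α g) (R2T I I (γ h) (adjoint w (xv α g' ζ))) =
      adjoint w (xv α (g * g') (JT (γ h) ζ)) := by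
  rw [← w_R2 hw hγ, R2_xv, ← w_R1 hw hα, R1_xv hα]

theorem w_mem (hw : Eq.Cc (Sg I I K Λ) (adjoint w)) (hww : ∀ v, adjoint w (w v) = VT I K (α 1) v)
    (hwe : ∀ v, w (adjoint w v) = L1 I K (α 1) v) (hα : AF α) (hγ : AF γ) (g : Γ)
    {ζ : Ell2 (K × Λ)} (h1 : JT (γ 1) ζ = ζ) :
    PT α α γ (adjoint w (xv α g ζ)) = adjoint w (xv α g ζ) := by
  change VT I K (α 1) (R1T I K (α 1) (R2T I I (γ 1) (adjoint w (xv α g ζ)))) = _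
  rw [w_xv hw hα hγ, one_mul, h1, ← hww, hwe, L1_xv hα]

theorem w_fix (hα : AF α) (hγ : AF γ) (hw : Eq.Cc (Sg I I K Λ) w)
    (hww : ∀ v, adjoint w (w v) = VT I K (α 1) v)
    (hwe : ∀ v, w (adjoint w v) = L1 I K (α 1) v) {v : Ell2 (I × ((I × Λ) × (K × Λ)))}
    (hv : PT α α γ v = v) :
    L1 I K (α 1) (R1T I K (α 1) (R2T I I (γ 1) (w v))) = w v ∧ adjoint w (w v) = v := by
  obtain ⟨hPP, kA, kB, kC, lA, lB, lC⟩ := PT_three hα hα hγ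
  have hP : ∀ (T : Ell2 (I × ((I × Λ) × (K × Λ))) →L[ℂ] Ell2 (I × ((I × Λ) × (K × Λ)))),
      T * PT α α γ = PT α α γ → T v = v := by
    intro T hT
    calc T v = T (PT α α γ v) := by rw [hv]
      _ = PT α α γ v := congrArg (fun T : Ell2 (I × ((I × Λ) × (K × Λ))) →L[ℂ]
        Ell2 (I × ((I × Λ) × (K × Λ))) => T v) hT
      _ = v := hv
  have hA := hP _ lA
  have hB := hP _ lB
  have hC := hP _ lC
  refine ⟨?_, by rw [hww, hA]⟩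
  rw [← w_R2 hw hγ, hC, ← w_R1 hw hα, hB, ← hwe, hww, hA]

end wfacts

/-- **[T-HON]** an honest Parseval family: the Gram matrix lives on `{1} × Γ`. -/
theorem hon_full [DecidableEq Γ]
    (hΛ : ∀ s : Λ, s ≠ 1 → Set.Infinite {y : Λ | ∃ h, y = h * s * h⁻¹}) :
    ∃ (m : ℕ) (ζ : Fin m → Ell2 (K × Λ)) (ξ : Fin m → HH (PT α α γ)),
      (∀ k, JT (γ 1) (ζ k) = ζ k) ∧ (∑ k, ‖ζ k‖ ^ 2 = (dm γ)⁻¹) ∧
      SR.Tri (V3 hα hα hγ) (A3R hα hα hγ) (B3R hα hα hγ) ξ ∧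
      ∀ g h i j, ⟪A3R hα hα hγ g (B3R hα hα hγ h (ξ i)), ξ j⟫_ℂ =
        if g = 1 then ⟪JT (γ h) (ζ i), ζ j⟫_ℂ else 0 := by
  obtain ⟨m0, m0', ξ0, h0⟩ := exists_tri hα hα hγ hΛ
  obtain ⟨m, ζ, hζp, hζn, hζ⟩ := H58.exists_frame_JT hγ hΛ
  obtain ⟨w, hwC, hww, hwe⟩ := exists_w (J := I) (K := K) hΛ (hα.comm 1) hα.p_adj hα.pp
  have hwC' := Eq.Cc.adj Sg_adj hwC
  have hwwv : ∀ v, adjoint w (w v) = VT I K (α 1) v := fun v =>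
    congrArg (fun T : Ell2 (I × ((I × Λ) × (K × Λ))) →L[ℂ] Ell2 (I × ((I × Λ) × (K × Λ))) => T v)
      hww
  have hwev : ∀ v, w (adjoint w v) = L1 I K (α 1) v := fun v =>
    congrArg (fun T : Ell2 (I × ((I × Λ) × (K × Λ))) →L[ℂ] Ell2 (I × ((I × Λ) × (K × Λ))) => T v)
      hwe
  set ξ : Fin m → HH (PT α α γ) := fun k =>
    ⟨adjoint w (xv α 1 (ζ k)), w_mem hwC' hwwv hwev hα hγ 1 (hζp k)⟩ with hξ
  have hval : ∀ g h k, (A3R hα hα hγ g (B3R hα hα hγ h (ξ k)) :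
      Ell2 (I × ((I × Λ) × (K × Λ)))) = adjoint w (xv α g (JT (γ h) (ζ k))) := by
    intro g h k
    rw [RR3_val]
    have h1 := w_xv hwC' hα hγ g 1 h (ζ k)
    rw [mul_one] at h1
    exact h1
  have frame : ∀ η : HH (PT α α γ), HasSum (fun p : Fin m × Γ × Γ =>
      ‖⟪A3R hα hα hγ p.2.1 (B3R hα hα hγ p.2.2 (ξ p.1)), η⟫_ℂ‖ ^ 2) (‖η‖ ^ 2) := by
    intro η
    obtain ⟨f1, f2⟩ := w_fix hα hγ hwC hwwv hwev (v := (η : Ell2 (I × ((I × Λ) × (K × Λ))))) η.2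
    have h1 := frame_w hα hζ f1 f2
    refine h1.congr_fun ?_ |> id
    intro p
    rw [Submodule.coe_inner, hval]
  refine ⟨m, ζ, ξ, hζp, hζn, ⟨h0.adjV, h0.adj₁, h0.adj₂, h0.comm₁, h0.comm₂, h0.comm₁₂, ?_,
    frame⟩, ?_⟩
  · by_contra hcon
    push Not at hcon
    obtain ⟨k, hk⟩ := h0.ne
    apply hk
    have h1 := frame (ξ0 k)
    simp only [hcon, map_zero, inner_zero_left, norm_zero] at h1
    have h2 := h1.unique (by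
      have : (fun _ : Fin m × Γ × Γ => (0 : ℝ) ^ 2) = fun _ => 0 := by
        funext _; ring
      rw [this]
      exact hasSum_zero)
    exact norm_eq_zero.1 (pow_eq_zero_iff two_ne_zero |>.mp h2)
  · intro g h i j
    rw [Submodule.coe_inner, hval]
    change ⟪adjoint w (xv α g (JT (γ h) (ζ i))), adjoint w (xv α 1 (ζ j))⟫_ℂ = _
    rw [adjoint_inner_left, hwev, L1_xv hα, inner_xv hα]

/-- **[T-HON]** in the letters of helper21 (#6207) -/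
theorem hon (hΛ : ∀ s : Λ, s ≠ 1 → Set.Infinite {y : Λ | ∃ h, y = h * s * h⁻¹}) :
    ∃ (m : ℕ) (ξ : Fin m → HH (PT α α γ)),
      SR.Tri (V3 hα hα hγ) (A3R hα hα hγ) (B3R hα hα hγ) ξ ∧
      ∀ g, g ≠ 1 → ∀ h i j, ⟪A3R hα hα hγ g (B3R hα hα hγ h (ξ i)), ξ j⟫_ℂ = 0 := by
  classical
  obtain ⟨m, ζ, ξ, -, -, h1, h2⟩ := hon_full hα hγ hΛ
  exact ⟨m, ξ, h1, fun g hg h i j => by rw [h2, if_neg hg]⟩

end main

end Vale.Agent.P092.H458.Hon
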