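import Vale.Agent.P092.H458.T.Dis
import Vale.Agent.P092.H21.RowM
import Vale.Agent.P092.H805.HalfK
import Vale.Agent.P092.H534.NWK

/-!
P092 (helper458), Team D, all `t`, [D-T-HALF]: the first leg `LegF` of the picture
`L²(G/Γ; HH(α, α, γ))` for the honest family, any local field. The inputs which depend on the field,
`SIZE` and `ORBF`, are hypotheses in literal form.
-/

set_option linter.all false

open scoped InnerProductSpace ENNReal LinearAlgebra.Projectivization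
open Filter Topology ContinuousLinearMap MeasureTheory TopologicalSpace

namespace Vale.Agent.P092.H458.HalfT

open Vale.Agent.P092.SD Vale.Agent.P092.SR Vale.Agent.P092.H160
open Vale.Agent.P092.H859.CL hiding cfc
open Vale.Agent.P092.RC (PicF Cm)
open Vale.Agent.P092.H790 (CData Ri baseL lxt)
open Vale.Agent.P092.H142 (DomCut)
open Vale.Agent.P092.H43 (BfL)
open Vale.Agent.P092.H538 (fst)
open Vale.Agent.P092.H933 (LocK)
open Vale.Agent.P092.H534.GK (ga gb bpk)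
open Vale.Agent.P092.H21 (Hon UT UT_norm RT mT JT JT_ae adjJT_ae BdT BfT WT msT SymF arepT covFamT
  ET ET_lx)
open Vale.Agent.P092.H458.DisT

/-! ### (UC) for the model -/

section uc

variable {D Γ ι ℋ : Type} [Group D] [Group Γ] [Countable Γ] [Fintype ι] [NormedAddCommGroup ℋ]
  [InnerProductSpace ℂ ℋ] [CompleteSpace ℋ] {V R₁ R₂ : Γ →* (ℋ →L[ℂ] ℋ)} {ξ : ι → ℋ}

/-- the fibre of the multiplication operators -/
noncomputable def m₀ (hT : Tri V R₁ R₂ ξ) (S : Set Γ) : ℋ →L[ℂ] ℋ :=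
  adjoint (UT hT) ∘L H432.mp ι (fun x : Γ × Γ => H553.ind (fun g => g ∈ S) x.1) ∘L UT hT

theorem m₀_norm (hT : Tri V R₁ R₂ ξ) (S : Set Γ) : ‖m₀ hT S‖ ≤ 1 := by
  refine ContinuousLinearMap.opNorm_le_bound _ zero_le_one fun v => ?_
  have h1 : ‖adjoint (UT hT)‖ ≤ 1 := by
    rw [LinearIsometryEquiv.norm_map]
    exact ContinuousLinearMap.opNorm_le_bound _ zero_le_one fun η => by rw [UT_norm, one_mul]
  have h2 := H432.norm_mp_le (ι := ι)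
    (F := fun x : Γ × Γ => H553.ind (fun g => g ∈ S) x.1) (C := 1)
    (fun x => H553.abs_ind_le _ _) (UT hT v)
  rw [UT_norm] at h2
  change ‖adjoint (UT hT) (H432.mp ι (fun x : Γ × Γ => H553.ind (fun g => g ∈ S) x.1)
    (UT hT v))‖ ≤ _
  refine ((ContinuousLinearMap.le_opNorm _ _).trans
    (mul_le_of_le_one_left (norm_nonneg _) h1)).trans h2

theorem st_mT (d : CData D Γ) (hT : Tri V R₁ R₂ ξ) (S : Set Γ) :
    st (mT d hT) S = (m₀ hT S).compLpL 2 d.μ := by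
  refine ContinuousLinearMap.ext fun η => Lp.ext ?_
  have e : st (mT d hT) S η = adjoint (JT d hT)
    ((H432.mp ι (fun x : Γ × Γ => H553.ind (fun g => g ∈ S) x.1)).compLpL 2 d.μ
      (JT d hT η)) := rfl
  rw [e]
  filter_upwards [adjJT_ae d hT
    ((H432.mp ι (fun x : Γ × Γ => H553.ind (fun g => g ∈ S) x.1)).compLpL 2 d.μ (JT d hT η)),
    (H432.mp ι (fun x : Γ × Γ => H553.ind (fun g => g ∈ S) x.1)).coeFn_compLpL
      (p := 2) (μ := d.μ) (JT d hT η), JT_ae d hT η,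
    (m₀ hT S).coeFn_compLpL (p := 2) (μ := d.μ) η] with x h1 h2 h3 h4
  rw [h1, h2, h3, h4]
  rfl

end uc

section ucG

variable {E : Type} [Group E] [TopologicalSpace E] [IsTopologicalGroup E] [LocallyCompactSpace E]
  [SecondCountableTopology E] [T2Space E] [MeasurableSpace E] [BorelSpace E]
  {Γ : Subgroup E} [DiscreteTopology Γ] [Countable Γ] [MeasurableSpace (E ⧸ Γ)]
  [BorelSpace (E ⧸ Γ)] {ν : Measure (E ⧸ Γ)} [IsProbabilityMeasure ν]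
  (hν : ∀ g : E, ν.map (fun x => g • x) = ν)
  {ι ℋ : Type} [Fintype ι] [NormedAddCommGroup ℋ] [InnerProductSpace ℂ ℋ] [CompleteSpace ℋ]
  {V R₁ R₂ : Γ →* (ℋ →L[ℂ] ℋ)} {ξ : ι → ℋ} (hT : Tri V R₁ R₂ ξ)

/-- **(UC)** for the model, any group, any constant field of norm at most one. -/
theorem uc_T {ω : ℋ} (hω : ‖ω‖ ≤ 1) :
    SD.UC (H34.Ind.pi (H85.cdat ν hν) (V := V) hT.adjV) (WT (H85.cdat ν hν) R₂)
      (Lp.const 2 (H85.cdat ν hν).μ ω) (st (mT (H85.cdat ν hν) hT)) := by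
  have h1 := H103.uc_of (V := V) hν hT.adjV (W := WT (H85.cdat ν hν) R₂)
    (fun A hA => Or.inl ⟨A, hA, rfl⟩) hω (m₀ := m₀ hT) (m₀_norm hT)
  have e : st (mT (H85.cdat ν hν) hT) = fun S => (m₀ hT S).compLpL 2 ν :=
    funext fun S => st_mT _ hT S
  rw [e]
  exact h1

omit [CompleteSpace ℋ] in
theorem norm_nrm_le (ξ : ι → ℋ) (i : ι) :
    ‖(((Real.sqrt (∑ j, ‖ξ j‖ ^ 2))⁻¹ : ℝ) : ℂ) • ξ i‖ ≤ 1 := by
  have h0 : ‖ξ i‖ ≤ Real.sqrt (∑ j, ‖ξ j‖ ^ 2) := by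
    refine Real.le_sqrt_of_sq_le ?_
    exact Finset.single_le_sum (f := fun j => ‖ξ j‖ ^ 2) (fun j _ => sq_nonneg _)
      (Finset.mem_univ i)
  rw [norm_smul, Complex.norm_real, Real.norm_of_nonneg (inv_nonneg.2 (Real.sqrt_nonneg _))]
  rcases eq_or_lt_of_le (Real.sqrt_nonneg (∑ j, ‖ξ j‖ ^ 2)) with h | h
  · rw [← h, inv_zero, zero_mul]
    exact zero_le_one
  · rw [inv_mul_le_iff₀ h, mul_one]
    exact h0

end ucG

/-! ### The first leg -/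

section con

variable {k : Type} [NontriviallyNormedField k] [ProperSpace k] [LocallyCompactSpace (G3 k)]
  [SecondCountableTopology (G3 k)] [MeasurableSpace (G3 k)] [BorelSpace (G3 k)]
  {Γ : Subgroup (G3 k)} [DiscreteTopology Γ] [Countable Γ] [MeasurableSpace (G3 k ⧸ Γ)]
  [BorelSpace (G3 k ⧸ Γ)] {ν : Measure (G3 k ⧸ Γ)} [IsProbabilityMeasure ν]
  (hν : ∀ g : G3 k, ν.map (fun x => g • x) = ν)
  {ι ι' ℋ : Type} [Fintype ι] [Fintype ι'] [NormedAddCommGroup ℋ] [InnerProductSpace ℂ ℋ]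
  [CompleteSpace ℋ] {V R₁ R₂ : Γ →* (ℋ →L[ℂ] ℋ)} {ξ : ι → ℋ} {ξ' : ι' → ℋ}
  (hT : Tri V R₁ R₂ ξ) (hh : Hon R₁ R₂ ξ) (hT' : Tri R₁ V R₂ ξ')
  (hΓ : ∀ g : Γ, g ≠ 1 → Set.Infinite {y : Γ | ∃ h, y = h * g * h⁻¹})

theorem bfl_sub (d : CData (G3 k) Γ) : BfL d.μ (Γ × Γ) ι ⊆ H357.BdL2 d.μ Γ Γ ι := by
  intro ζ hζ
  have hζ' : ∀ᵐ x ∂d.μ, H43.LB (ζ x : Ell2 ((Γ × Γ) × ι)) := hζ
  change ∀ᵐ x ∂d.μ, H357.B2 (ζ x : Ell2 ((Γ × Γ) × ι))
  filter_upwards [hζ'] with x hx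
  exact hx.b2

include hh hT' hΓ in
/-- **The source data of the first leg, all `t`.** -/
theorem srcT {w : kˣ} (hw : ‖(w : k)‖ < 1) (c : ℂ)
    (pic : PicF (H34.Ind.pi (H85.cdat ν hν) (V := V) hT.adjV) (H34.Ind.lam (H85.cdat ν hν) R₁)
      (WT (H85.cdat ν hν) R₂)
      (fun i => (Lp.const 2 (H85.cdat ν hν).μ (c • ξ i) : Lp ℋ 2 (H85.cdat ν hν).μ))) :
    SrcF w (H34.Ind.pi (H85.cdat ν hν) (V := V) hT.adjV) (H34.Ind.lam (H85.cdat ν hν) R₁)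
      (WT (H85.cdat ν hν) R₂)
      (fun i => (Lp.const 2 (H85.cdat ν hν).μ (c • ξ i) : Lp ℋ 2 (H85.cdat ν hν).μ))
      (mT (H85.cdat ν hν) hT) (BdT (H85.cdat ν hν) hT) (BfT (H85.cdat ν hν) hT) where
  pic := pic
  hw := hw
  mcov := (H21.leg_T (H85.cdat ν hν) hT hh hΓ hT').cov
  mW := (H21.leg_T (H85.cdat ν hν) hT hh hΓ hT').Wm
  slow := H21.slow_T (H85.cdat ν hν) hT hΓ hT' hh (H43.ccont_cdat ν hν)
  loc := H21.loc2_T (H85.cdat ν hν) hT hΓ hT' hh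
  esc := by
    rw [Subgroup.zpowers_inv]
    exact H21.esc_T (H85.cdat ν hν) hT hΓ hT' hh (H541.esc_pow_inv Γ ν hν (arepT hT hΓ hT')
      (covFamT hT hT') (fun A q => ET_lx hT hT' A q) (H805.HalfK.pow_bw hw) (H357.BdL2 ν Γ Γ ι))
  esc' := by
    rw [Subgroup.zpowers_inv]
    exact H21.esc_T (H85.cdat ν hν) hT hΓ hT' hh (H541.esc_pow Γ ν hν (arepT hT hΓ hT')
      (covFamT hT hT') (fun A q => ET_lx hT hT' A q) (H805.HalfK.pow_bw hw) (H357.BdL2 ν Γ Γ ι))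
  sym := H21.symF_T (H85.cdat ν hν) hT hh hΓ hT' c
  fin := fun η ε hε => H21.fin_T (H85.cdat ν hν) hT hh η hε
  om := fun i => ⟨c, Lp.const 2 (H85.cdat ν hν).μ (ξ i),
    H21.bf_T (H85.cdat ν hν) hT (arepT hT hΓ hT') (bfl_sub _) i, rfl⟩

include hh hT' hΓ in
/-- **`MsF`** -/
theorem msF_T (c : ℂ) (hc : c ≠ 0)
    (pic : PicF (H34.Ind.pi (H85.cdat ν hν) (V := V) hT.adjV) (H34.Ind.lam (H85.cdat ν hν) R₁)
      (WT (H85.cdat ν hν) R₂)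
      (fun i => (Lp.const 2 (H85.cdat ν hν).μ (c • ξ i) : Lp ℋ 2 (H85.cdat ν hν).μ))) :
    MsF (H34.Ind.lam (H85.cdat ν hν) R₁) (WT (H85.cdat ν hν) R₂)
      (fun i => (Lp.const 2 (H85.cdat ν hν).μ (c • ξ i) : Lp ℋ 2 (H85.cdat ν hν).μ))
      (st (mT (H85.cdat ν hν) hT)) where
  adj := (H21.fn_T (H85.cdat ν hν) hT hh).prj.adj
  inf := (H21.fn_T (H85.cdat ν hν) hT hh).prj.inter
  compl := (H21.fn_T (H85.cdat ν hν) hT hh).prj.compl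
  cm := fun S w hw => H21.cm_T (H85.cdat ν hν) hT hh hΓ hT' S w hw
  cov := H21.cov_T (H85.cdat ν hν) hT hh hΓ hT'
  om := H21.om_T (H85.cdat ν hν) hT hh c
  fin := fun η ε hε => H21.fin_T (H85.cdat ν hν) hT hh η hε
  cyc := fun η hη => H21.cyc_T (H85.cdat ν hν) hT hh hc hη

include hh hT' hΓ in
/-- **`SysF`**, for any two gap functions. -/
theorem sysT {w : kˣ} {G1 G2 : Γ → ℝ}
    (hgap : ∀ s u : Γ, ∃ C, ∀ x, |G1 (s * x * u) - G1 x| ≤ C ∧ |G2 (s * x * u) - G2 x| ≤ C)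
    (nrm : ∀ ε : ℝ, 0 < ε → ∃ r, ∀ u ∈ Subgroup.zpowers (bw w : G3 k),
      msT (H85.cdat ν hν) hT u (BB G1 G2 r) ≤ ε) :
    SysF (mT (H85.cdat ν hν) hT) (fun g => H34.Ind.pi (H85.cdat ν hν) (V := V) hT.adjV g)
      (BdT (H85.cdat ν hν) hT) (msT (H85.cdat ν hν) hT) (Subgroup.zpowers (bw w)⁻¹) G1 G2 := by
  rw [Subgroup.zpowers_inv]
  exact H21.sysF_T (H85.cdat ν hν) hT hΓ hT' hh hgap nrm

include hh hT' hΓ in
/-- **Leg 1 over any local field, all `t`**, general gaps. -/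
theorem half_genT [MeasurableSpace k] {μ : Measure k} {w : kˣ} (hw : ‖(w : k)‖ < 1)
    (c : ℂ) (hc : c ≠ 0) (hc1 : ∀ i, ‖c • ξ i‖ ≤ 1)
    (pic : PicF (H34.Ind.pi (H85.cdat ν hν) (V := V) hT.adjV) (H34.Ind.lam (H85.cdat ν hν) R₁)
      (WT (H85.cdat ν hν) R₂)
      (fun i => (Lp.const 2 (H85.cdat ν hν).μ (c • ξ i) : Lp ℋ 2 (H85.cdat ν hν).μ)))
    {G1 G2 : Γ → ℝ} {bp bp' : Γ → PP k}
    (hG : @GeoF Γ (PP k) _ _ (MulAction.compHom (PP k) Γ.subtype) G1 G2 bp)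
    (hcut : DomCut Γ.subtype G1 G2 bp)
    (hG' : @GeoF Γ (PP k) _ _ (MulAction.compHom (PP k) ((tau k).comp Γ.subtype)) G2 G1 bp')
    (hcut' : DomCut ((tau k).comp Γ.subtype) G2 G1 bp')
    (hNW : ∀ r : ℝ, ∃ R : ℝ, ∀ γ, G2 γ ≤ r → NW R (Γ.subtype γ))
    (hNW' : ∀ r : ℝ, ∃ R : ℝ, ∀ γ, G1 γ ≤ r → NW R (((tau k).comp Γ.subtype) γ))
    {C : ℝ} (hC : ∀ g, |G1 g⁻¹ - G2 g| ≤ C ∧ |G2 g⁻¹ - G1 g| ≤ C)
    (hd : ∀ C : ℝ, {γ : Γ | nm (((tau k).comp Γ.subtype) γ) ≤ C}.Finite)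
    (nrm : ∀ ε : ℝ, 0 < ε → ∃ r, ∀ u ∈ Subgroup.zpowers (bw w : G3 k),
      msT (H85.cdat ν hν) hT u (BB G1 G2 r) ≤ ε)
    (size : ∀ q : Γ →* G3 k, q = Γ.subtype ∨ q = (tau k).comp Γ.subtype → ∀ i,
      SIZE w (H34.Ind.pi (H85.cdat ν hν) (V := V) hT.adjV)
        (Lp.const 2 (H85.cdat ν hν).μ (c • ξ i)) (st (mT (H85.cdat ν hν) hT)) q)
    (orb : ORBF μ w (H34.Ind.pi (H85.cdat ν hν) (V := V) hT.adjV)
      (H34.Ind.lam (H85.cdat ν hν) R₁) (WT (H85.cdat ν hν) R₂)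
      (fun i => (Lp.const 2 (H85.cdat ν hν).μ (c • ξ i) : Lp ℋ 2 (H85.cdat ν hν).μ))) :
    ∃ (q : Γ →* G3 k) (E F : PP k → (CP k →⋆ₐ[ℂ]
        (Lp ℋ 2 (H85.cdat ν hν).μ →L[ℂ] Lp ℋ 2 (H85.cdat ν hν).μ))),
      (q = Γ.subtype ∨ q = (tau k).comp Γ.subtype) ∧
      LegF μ w (H34.Ind.pi (H85.cdat ν hν) (V := V) hT.adjV) (H34.Ind.lam (H85.cdat ν hν) R₁)
        (WT (H85.cdat ν hν) R₂)
        (fun i => (Lp.const 2 (H85.cdat ν hν).μ (c • ξ i) : Lp ℋ 2 (H85.cdat ν hν).μ))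
        (st (mT (H85.cdat ν hν) hT)) q E F := by
  have S := srcT hν hT hh hT' hΓ hw c pic
  have hs := sysT hν hT hh hT' hΓ (w := w) (G1 := G1) (G2 := G2) hG.gap nrm
  obtain ⟨q, hq, hnws, E, F, hE, hF⟩ := DisT.dis S hs hG hcut (H805.HalfK.nis_sub hν) hG' hcut'
    (H805.HalfK.nis_sub' hν) hNW hNW' hC
  refine ⟨q, E, F, hq, ?_⟩
  exact
    { hw := hw
      pic := pic
      ms := msF_T hν hT hh hT' hΓ c hc pic
      inj := by
        rcases hq with rfl | rfl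
        · exact Subtype.val_injective
        · exact fun a b h => Subtype.val_injective (H805.HalfK.tau_inj h)
      disc := by
        rcases hq with rfl | rfl
        · exact H805.HalfK.disc_sub Γ
        · exact hd
      uc := fun i => uc_T hν hT (hc1 i)
      orb := orb
      size := size q hq
      nws := hnws
      e := hE
      f := hF }

include hh hT' hΓ in
/-- **Leg 1 over any local field, all `t`.** -/
theorem half_T (hk : LocK k) [MeasurableSpace k] {μ : Measure k} {w : kˣ} (hw : ‖(w : k)‖ < 1)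
    (c : ℂ) (hc : c ≠ 0) (hc1 : ∀ i, ‖c • ξ i‖ ≤ 1)
    (pic : PicF (H34.Ind.pi (H85.cdat ν hν) (V := V) hT.adjV) (H34.Ind.lam (H85.cdat ν hν) R₁)
      (WT (H85.cdat ν hν) R₂)
      (fun i => (Lp.const 2 (H85.cdat ν hν).μ (c • ξ i) : Lp ℋ 2 (H85.cdat ν hν).μ)))
    (size : ∀ q : Γ →* G3 k, q = Γ.subtype ∨ q = (tau k).comp Γ.subtype → ∀ i,
      SIZE w (H34.Ind.pi (H85.cdat ν hν) (V := V) hT.adjV)
        (Lp.const 2 (H85.cdat ν hν).μ (c • ξ i)) (st (mT (H85.cdat ν hν) hT)) q)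
    (orb : ORBF μ w (H34.Ind.pi (H85.cdat ν hν) (V := V) hT.adjV)
      (H34.Ind.lam (H85.cdat ν hν) R₁) (WT (H85.cdat ν hν) R₂)
      (fun i => (Lp.const 2 (H85.cdat ν hν).μ (c • ξ i) : Lp ℋ 2 (H85.cdat ν hν).μ))) :
    ∃ (q : Γ →* G3 k) (E F : PP k → (CP k →⋆ₐ[ℂ]
        (Lp ℋ 2 (H85.cdat ν hν).μ →L[ℂ] Lp ℋ 2 (H85.cdat ν hν).μ))),
      (q = Γ.subtype ∨ q = (tau k).comp Γ.subtype) ∧
      LegF μ w (H34.Ind.pi (H85.cdat ν hν) (V := V) hT.adjV) (H34.Ind.lam (H85.cdat ν hν) R₁)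
        (WT (H85.cdat ν hν) R₂)
        (fun i => (Lp.const 2 (H85.cdat ν hν).μ (c • ξ i) : Lp ℋ 2 (H85.cdat ν hν).μ))
        (st (mT (H85.cdat ν hν) hT)) q E F := by
  have hdisc : ∀ C : ℝ, {γ : Γ | nm (Γ.subtype γ) ≤ C}.Finite := H805.HalfK.disc_sub Γ
  have hdisc' := H534.GK.disc_tau Γ.subtype hdisc
  have e1 : (fun γ : Γ => ga (((tau k).comp Γ.subtype) γ)) = fun γ => gb (Γ.subtype γ) :=
    funext fun γ => H534.GK.ga_tau _
  have e2 : (fun γ : Γ => gb (((tau k).comp Γ.subtype) γ)) = fun γ => ga (Γ.subtype γ) :=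
    funext fun γ => H534.GK.gb_tau _
  have hG' := H534.GK.geoF ((tau k).comp Γ.subtype) hdisc'
  have hc' : DomCut ((tau k).comp Γ.subtype) (fun γ => ga (((tau k).comp Γ.subtype) γ))
      (fun γ => gb (((tau k).comp Γ.subtype) γ)) (fun γ => bpk (((tau k).comp Γ.subtype) γ)) :=
    fun r => ⟨Real.exp r, H534.GK.cone_sub ((tau k).comp Γ.subtype) r⟩
  rw [e1, e2] at hG' hc'
  refine half_genT hν hT hh hT' hΓ hw c hc hc1 pic (H534.GK.geoF Γ.subtype hdisc)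
    (fun r => ⟨Real.exp r, H534.GK.cone_sub Γ.subtype r⟩) hG' hc'
    (fun r => ⟨Real.exp r, fun γ h => H534.GK.nw_of_gb h⟩)
    (fun r => ⟨Real.exp r, fun γ h => H534.GK.nw_of_gb ?_⟩) (C := 0) (fun g => ?_) hdisc'
    (fun ε hε => H534.GK.nrm_bwK Γ ν hν hk (arepT hT hΓ hT') (covFamT hT hT')
      (fun A q => ET_lx hT hT' A q) hw Γ.subtype hdisc hε) size orb
  · have e3 : gb (((tau k).comp Γ.subtype) γ) = ga (Γ.subtype γ) := H534.GK.gb_tau _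
    rw [e3]
    exact h
  · have e3 : Γ.subtype g⁻¹ = (Γ.subtype g)⁻¹ := map_inv _ _
    rw [e3, H534.GK.ga_inv, H534.GK.gb_inv, sub_self, sub_self, abs_zero]
    exact ⟨le_rfl, le_rfl⟩

end con

end Vale.Agent.P092.H458.HalfT
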