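import Vale.Agent.P092.H458.T.HalfHH
import Vale.Agent.P092.H421.GrT7
import Vale.Agent.P092.H958.OrbT
import Vale.Agent.P092.SDT.Main

/-!
P092 (helper458), Team D, all `t`, [D-T-HALF]: the first leg of the model with the honest family,
any local field (`leg_loc`), and `SDT.HalfT`.
-/

set_option linter.all false

open scoped InnerProductSpace ENNReal LinearAlgebra.Projectivization
open Filter Topology ContinuousLinearMap MeasureTheory TopologicalSpace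

namespace Vale.Agent.P092.H458.HalfT

open Vale.Agent.P092.SD Vale.Agent.P092.SR Vale.Agent.P092.H160 Vale.Agent.P092.H103
open Vale.Agent.P092.H962
open Vale.Agent.P092.H859.CL (st)
open Vale.Agent.P092.RC (adjV3)
open Vale.Agent.P092.H933 (LocK)
open Vale.Agent.P092.H21 (Hon mT)
open Vale.Agent.P092.H368.SN (md)
open Vale.Agent.P092.H34 Vale.Agent.P092.H85

section con

variable {k : Type} [NontriviallyNormedField k] [ProperSpace k] [MeasurableSpace k] [BorelSpace k]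
  {μ : Measure k} [μ.IsAddHaarMeasure] [LocallyCompactSpace (G3 k)]
  [SecondCountableTopology (G3 k)] [MeasurableSpace (G3 k)] [BorelSpace (G3 k)]
  {Γ : Subgroup (G3 k)} [DiscreteTopology Γ] [Countable Γ] [MeasurableSpace (G3 k ⧸ Γ)]
  [BorelSpace (G3 k ⧸ Γ)] {ν : Measure (G3 k ⧸ Γ)} [IsProbabilityMeasure ν]
  (hν : ∀ g : G3 k, ν.map (fun x => g • x) = ν)
  (hΓ : ∀ g : Γ, g ≠ 1 → Set.Infinite {y : Γ | ∃ h, y = h * g * h⁻¹})
  {Λ : Type} [Group Λ] [Countable Λ]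
  (hΛ : ∀ s : Λ, s ≠ 1 → Set.Infinite {y : Λ | ∃ h, y = h * s * h⁻¹})
  {I : Type} [Fintype I] {α : Γ → (Ell2 (I × Λ) →L[ℂ] Ell2 (I × Λ))} (hα : AF α)

/-- the normalisation -/
noncomputable def cN {ι ℋ : Type} [Fintype ι] [NormedAddCommGroup ℋ] (ξ : ι → ℋ) : ℂ :=
  ((((Real.sqrt (∑ j, ‖ξ j‖ ^ 2))⁻¹ : ℝ) : ℂ))

include hΓ hΛ in
theorem pic_HH {ι : Type} [Fintype ι] {ξ : ι → HH (PT α α α)}
    (hT : Tri (V3 hα hα hα) (A3R hα hα hα) (B3R hα hα hα) ξ) :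
    RC.PicF (Ind.pi (cdat ν hν) (V := V3 hα hα hα) hT.adjV)
      (Ind.lam (cdat ν hν) (A3R hα hα hα))
      (Ind.Xset (cdat ν hν) (HH (PT α α α)) ∪ Set.range (Ind.lam (cdat ν hν) (B3R hα hα hα)))
      (AmpE.nrm hν ξ) := by
  haveI : NoncompactSpace (G3 k) :=
    H34.PicC.sl_noncompact (ι := Fin 3) (k := k) (show (0 : Fin 3) ≠ 1 by decide)
  exact (RC.pic2F_HH hν hα hα hα hΓ hΛ (adjV3 hα) hT).leg₁

include hΓ hΛ in
theorem msF_HH {ι : Type} [Fintype ι] {ξ : ι → HH (PT α α α)}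
    (hT : Tri (V3 hα hα hα) (A3R hα hα hα) (B3R hα hα hα) ξ)
    (hh : Hon (A3R hα hα hα) (B3R hα hα hα) ξ) :
    MsF (Ind.lam (cdat ν hν) (A3R hα hα hα))
      (Ind.Xset (cdat ν hν) (HH (PT α α α)) ∪ Set.range (Ind.lam (cdat ν hν) (B3R hα hα hα)))
      (AmpE.nrm hν ξ) (st (mT (cdat ν hν) hT)) := by
  obtain ⟨m', m'', ζ, h'⟩ := exists_tri' hα hα hα hΛ
  exact msF_T hν hT hh h' hΓ (cN ξ) (RC.nrm_ne hT.ne) (pic_HH hν hΓ hΛ hα hT)

/-- the output for one family -/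
def LegOut (μ : Measure k) (w : kˣ) {ι : Type} [Fintype ι] {ξ : ι → HH (PT α α α)}
    (hT : Tri (V3 hα hα hα) (A3R hα hα hα) (B3R hα hα hα) ξ) : Prop :=
  ∃ (q : Γ →* G3 k) (E F : PP k → (CP k →⋆ₐ[ℂ]
      (Lp (HH (PT α α α)) 2 (cdat ν hν).μ →L[ℂ] Lp (HH (PT α α α)) 2 (cdat ν hν).μ))),
    (q = Γ.subtype ∨ q = (tau k).comp Γ.subtype) ∧
    LegF μ w (Ind.pi (cdat ν hν) (V := V3 hα hα hα) hT.adjV)
      (Ind.lam (cdat ν hν) (A3R hα hα hα))
      (Ind.Xset (cdat ν hν) (HH (PT α α α)) ∪ Set.range (Ind.lam (cdat ν hν) (B3R hα hα hα)))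
      (AmpE.nrm hν ξ) (st (mT (cdat ν hν) hT)) q E F

include hΓ hΛ in
theorem leg_nrm (hk : LocK k) {w : kˣ} (hw : ‖(w : k)‖ < 1) (hmd : md w ≤ ‖(w : k)‖)
    {ι : Type} [Fintype ι] {ξ : ι → HH (PT α α α)}
    (hT : Tri (V3 hα hα hα) (A3R hα hα hα) (B3R hα hα hα) ξ)
    (hh : Hon (A3R hα hα hα) (B3R hα hα hα) ξ) : LegOut hν hα μ w hT := by
  have hM := msF_HH hν hΓ hΛ hα hT hh
  exact leg_HH hν hΓ hΛ hα hk (μ := μ) hw hT hh
    (fun q _ i => H421.GrT.size_HH₁ hν hα hα hα hΓ hΛ (adjV3 hα) hk w hT hM q i)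
    (H958.orbF_T hν hα hα hα hmd hT)

include hΓ hΛ in
/-- **The first leg of the model, any local field, all `t`.** -/
theorem leg_loc (hk : LocK k) {w : kˣ} (hw : ‖(w : k)‖ < 1) (hmd : md w ≤ ‖(w : k)‖) :
    ∃ (m : ℕ) (ξ : Fin m → HH (PT α α α))
      (hT : Tri (V3 hα hα hα) (A3R hα hα hα) (B3R hα hα hα) ξ), LegOut hν hα μ w hT := by
  obtain ⟨m, ξ, hT, hh⟩ := Vale.Agent.P092.H458.Hon.hon hα hα hΛ
  exact ⟨m, ξ, hT, leg_nrm hν hΓ hΛ hα hk hw hmd hT hh⟩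

end con

/-! ### The real numbers -/

section real

open scoped Pointwise

theorem md_real (w : ℝˣ) : md w ≤ ‖(w : ℝ)‖ := by
  have h1 := H368.SN.measure_smul (volume : Measure ℝ) w (Metric.closedBall 0 1)
  have h2 : (w • Metric.closedBall (0 : ℝ) 1) = ((w : ℝ) • Metric.closedBall (0 : ℝ) 1) := rfl
  rw [h2, Measure.addHaar_smul, Module.finrank_self, pow_one] at h1
  have hpos : volume (Metric.closedBall (0 : ℝ) 1) ≠ 0 :=
    (Metric.measure_closedBall_pos volume (0 : ℝ) one_pos).ne'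
  have hfin : volume (Metric.closedBall (0 : ℝ) 1) ≠ ∞ :=
    (isCompact_closedBall (0 : ℝ) 1).measure_ne_top
  have h3 : ENNReal.ofReal |(w : ℝ)| = ENNReal.ofReal (md w) :=
    (ENNReal.mul_left_inj hpos hfin).1 h1
  have h4 := (ENNReal.ofReal_eq_ofReal_iff (abs_nonneg _) (H368.SN.md_nonneg w)).1 h3
  rw [Real.norm_eq_abs, h4]

theorem locK_real : LocK ℝ := .real (RingEquiv.refl ℝ) fun _ => rfl

theorem exists_w : ∃ w : ℝˣ, ‖(w : ℝ)‖ < 1 :=
  ⟨Units.mk0 (1 / 2) (by norm_num), by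
    rw [Units.val_mk0, Real.norm_eq_abs, abs_of_pos (by norm_num)]; norm_num⟩

/-- **[D-T-HALF]** -/
theorem halfT : SDT.HalfT := by
  intro _ _ _ _ Γ _ _ _ _ ν _ hν hL hΓ Λ _ _ hΛ I _ α hα
  have h := leg_loc (μ := (volume : Measure ℝ)) hν hΓ hΛ hα locK_real exists_w.choose_spec
    (md_real _)
  exact Exists.elim h fun m h => Exists.elim h fun ξ h => Exists.elim h fun hT h =>
    Exists.elim h fun q h => Exists.elim h fun E h => Exists.elim h fun F h =>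
      ⟨Fin m, inferInstance, ξ, hT, exists_w.choose, _, q, E, F, h.2⟩

end real

end Vale.Agent.P092.H458.HalfT
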