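import Vale.Agent.P092.SDT.Fin
import Vale.Agent.P092.H458.T.HalfR

/-!
P092 (helper458), Team D, all `t`: `SD.St.FinalAll`, all amplifications for the lattices of
`SL_3(ℝ)`.
-/

namespace Vale.Agent.P092.H458.HalfT

/-- **All lattices of `SL_3(ℝ)`, all amplifications.** -/
theorem finalAll : SD.St.FinalAll := SDT.finalAll_of_half halfT

end Vale.Agent.P092.H458.HalfT
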