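import Vale.Agent.P092.H805.Dis
import Vale.Agent.P092.H21.DichoF
import Vale.Agent.P092.H958.AmpD

/-!
P092 (helper458), Team D, all `t`, [D-T-HALF] part 1: the type dichotomy and the two families of
calculi of one leg, for a picture with a finite family of vectors (`PicF`).
-/

set_option linter.all false

open scoped InnerProductSpace ENNReal LinearAlgebra.Projectivization Pointwise
open Filter Topology ContinuousLinearMap MeasureTheory TopologicalSpace Matrix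

namespace Vale.Agent.P092.H458.DisT

open Vale.Agent.P092.SD Vale.Agent.P092.H142
open Vale.Agent.P092.H859.CL hiding cfc
open Vale.Agent.P092.RC (PicF Moore Cm)
open Vale.Agent.P092.H43 (Loc2 lu1 lu2 loc_at)
open Vale.Agent.P092.H76.Pur
open Vale.Agent.P092.H76.Dicho (LU)
open Vale.Agent.P092.H411 (tau_tau tau_cont tauE act_spec act_uniq agr_main rc_moore nrm_of_cov
  Nrm comm_of_const)
open Vale.Agent.P092.H21 (SymF NoC noC_of dicho_powF InvF)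
open Vale.Agent.P092.H805.Dis

/-! ### Consequences of the picture -/

section pic

variable {Γ D K ι : Type} [Group Γ] [Group D] [TopologicalSpace D] [NormedAddCommGroup K]
  [InnerProductSpace ℂ K] [CompleteSpace K] [Fintype ι] {π : D →* (K →L[ℂ] K)}
  {lam : Γ →* (K →L[ℂ] K)} {W : Set (K →L[ℂ] K)} {Ω : ι → K}

theorem noC_of_pic {X : Type} [TopologicalSpace X] [CompactSpace X] {act : Γ → X → X}
    (hP : PicF π lam W Ω) (hNI : NIS act) : NoC act π lam W := by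
  obtain ⟨n, Ω', h1, h2⟩ := hP.inv
  exact noC_of hNI h1 fun T hW hπ γ => h2 T (fun w hw => hW w hw) hπ γ

theorem erg_of_pic (hP : PicF π lam W Ω) {Q : Set D} (hQ : Moore Q) : Erg π lam W Q :=
  fun T hW hlam hπ => hP.erg Q hQ T (fun w hw => hW w hw) hlam hπ

theorem leg_of_pic (hP : PicF π lam W Ω) {mp : (Γ → ℝ) → (K →L[ℂ] K)}
    (hcov : ∀ γ (F : Γ → ℝ), (∀ g, |F g| ≤ 1) → lam γ * mp F * lam γ⁻¹ = mp (fun g => F (γ⁻¹ * g)))
    (hWm : ∀ w ∈ W, ∀ F : Γ → ℝ, (∀ g, |F g| ≤ 1) → w * mp F = mp F * w) :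
    Leg mp π lam W where
  one := map_one π
  lmul := map_mul lam
  lone := map_one lam
  comm := hP.comm
  cov := hcov
  WP := hP.WP
  Wm := hWm

/-- no covariant unital homomorphism commutes with everything -/
theorem const_false {X : Type} [TopologicalSpace X] [CompactSpace X] {act : Γ → X → X}
    (hNC : NoC act π lam W) (β : C(X, ℂ) →⋆ₐ[ℂ] (K →L[ℂ] K))
    (hcov : ∀ γ, ∀ f f' : C(X, ℂ), (∀ x, f' (act γ x) = f x) → lam γ * β f * lam γ⁻¹ = β f')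
    (hW : ∀ f, ∀ w ∈ W, β f * w = w * β f) (hπ : ∀ f g, β f * π g = π g * β f) : False := by
  obtain ⟨E, hE⟩ : ∃ E : C(X, ℂ) →ₗ[ℂ] (K →L[ℂ] K), ∀ f, E f = β f :=
    ⟨β.toAlgHom.toLinearMap, fun f => rfl⟩
  have hU : UCP E := by
    refine ⟨fun f => ?_, fun f ξ => ?_, fun ξ => ?_⟩
    · rw [hE, hE, ← ContinuousLinearMap.star_eq_adjoint, ← map_star]
    · rw [hE, hE, map_mul, map_star, ContinuousLinearMap.star_eq_adjoint]
      change _ ≤ (⟪ξ, ContinuousLinearMap.adjoint (β f) (β f ξ)⟫_ℂ).re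
      rw [ContinuousLinearMap.adjoint_inner_right, inner_self_eq_norm_sq_to_K]
      norm_cast
    · rw [hE, map_one]
      change (⟪ξ, ξ⟫_ℂ).re ≤ _
      rw [inner_self_eq_norm_sq_to_K]
      norm_cast
  refine hNC E hU 1 one_ne_zero (by rw [hE, map_one, one_smul]) ?_
    (fun f w hw => ?_) fun f g => ?_
  · intro γ f f' h
    rw [hE, hE]
    exact hcov γ f f' h
  · rw [hE]; exact hW f w hw
  · rw [hE]; exact hπ f g

variable {Y : Type} [TopologicalSpace Y] [CompactSpace Y] [MulAction Γ Y]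
  {mp : (Γ → ℝ) → (K →L[ℂ] K)} {Bd : Set K}
  {ms : D → Set Γ → ℝ} {A : Subgroup D} {G1 G2 : Γ → ℝ} {bp : Γ → Y}

/-- **The type dichotomy for a picture with a family of vectors.** -/
theorem dicho_pic (hP : PicF π lam W Ω) {b : D} (h : SysF mp π Bd ms A G1 G2)
    (hG : GeoF G1 G2 bp)
    (hcov : ∀ γ (F : Γ → ℝ), (∀ g, |F g| ≤ 1) → lam γ * mp F * lam γ⁻¹ = mp (fun g => F (γ⁻¹ * g)))
    (hWm : ∀ w ∈ W, ∀ F : Γ → ℝ, (∀ g, |F g| ≤ 1) → w * mp F = mp F * w) (hS : Slow mp π Bd)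
    (he : Esc (st mp) π Bd A (map (fun n : ℕ => b ^ n) atTop))
    (he' : Esc (st mp) π Bd A (map (fun n : ℕ => b⁻¹ ^ n) atTop))
    (hLU : LU mp π G1 G2 (map (fun n : ℕ => b ^ n) atTop))
    (hLU' : LU mp π G1 G2 (map (fun n : ℕ => b⁻¹ ^ n) atTop))
    (hsy : SymF mp π Ω) {C : ℝ} (hC : ∀ g, |G1 g⁻¹ - G2 g| ≤ C ∧ |G2 g⁻¹ - G1 g| ≤ C)
    (hNI : NIS (fun (γ : Γ) (y : Y) => γ • y)) {N N' L : Set D}
    (hN : ∀ n ∈ N, Tendsto (fun i : ℕ => b ^ i * n * (b ^ i)⁻¹) atTop (𝓝 1))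
    (hN' : ∀ n ∈ N', Tendsto (fun i : ℕ => (b ^ i)⁻¹ * n * b ^ i) atTop (𝓝 1))
    (hLb : ∀ n ∈ L, Commute b n) (hM : Moore N) (hM' : Moore N')
    (hcl : Subgroup.closure (N ∪ N' ∪ L) = ⊤) :
    (Full (st mp) π G1 G2 (map (fun n : ℕ => b ^ n) atTop) ∧
        Full (st mp) π G2 G1 (map (fun n : ℕ => b⁻¹ ^ n) atTop)) ∨
      (Full (st mp) π G2 G1 (map (fun n : ℕ => b ^ n) atTop) ∧
        Full (st mp) π G1 G2 (map (fun n : ℕ => b⁻¹ ^ n) atTop)) := by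
  refine dicho_powF (Q := N ∪ L) (Q' := N' ∪ L) h hG (leg_of_pic hP hcov hWm) hS he he' hLU hLU'
    hsy hC hP.nΩ (noC_of_pic hP hNI) (fun n hn => ?_) (fun n hn => ?_) ?_
    (erg_of_pic hP (H76.Dicho.Moore.mono hM Set.subset_union_left))
    (erg_of_pic hP (H76.Dicho.Moore.mono hM' Set.subset_union_left))
  · exact hn.imp (hN n) (hLb n)
  · exact hn.imp (hN' n) (hLb n)
  · rw [eq_top_iff, ← hcl]
    refine Subgroup.closure_mono ?_
    intro x hx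
    simp only [Set.mem_union] at hx ⊢
    tauto

end pic

/-! ### Different points agree nowhere -/

section agr

variable {n : Type} [Fintype n] [DecidableEq n] {k : Type} [NontriviallyNormedField k]
  {Γ K ι : Type} [Group Γ] [NormedAddCommGroup K] [InnerProductSpace ℂ K] [CompleteSpace K]
  [Fintype ι] {X : Type*} [TopologicalSpace X]
  {π : SpecialLinearGroup n k →* (K →L[ℂ] K)} {lam : Γ →* (K →L[ℂ] K)} {W : Set (K →L[ℂ] K)}
  {Ω : ι → K} {β : ℙ k (n → k) → (C(X, ℂ) →⋆ₐ[ℂ] (K →L[ℂ] K))}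

theorem agr_pic (hp : PicF π lam W Ω) (h3 : 3 ≤ Fintype.card n)
    (θ : SpecialLinearGroup n k ≃* SpecialLinearGroup n k) (hθ' : Continuous θ.symm)
    (hcov : ∀ g c F, π g * β c F = β (θ g • c) F * π g) (hcm : ∀ c F, Cm W (β c F))
    (hlam : ∀ γ, ∃ σ : C(X, ℂ) → C(X, ℂ), ∀ c F, lam γ * β c F = β c (σ F) * lam γ)
    (hconst : ¬ ∀ c c' F, β c F = β c' F) {a b : ℙ k (n → k)} (hab : a ≠ b) :
    (∀ ζ, (∀ F, β a F ζ = β b F ζ) → ζ = 0) ∧
    (∀ R : K →L[ℂ] K, (∀ F, β a F * R = β b F * R) → R = 0) ∧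
    ∀ R : K →L[ℂ] K, (∀ F, R * β a F = R * β b F) → R = 0 := by
  have hl1 : ∀ γ, lam γ * lam γ⁻¹ = 1 := fun γ => by rw [← map_mul, mul_inv_cancel, map_one]
  refine agr_main (π := π) h3 θ hθ' hp.adjP hcov (𝒟 := W ∪ Set.range lam) ?_ ?_ hconst hab
  · rintro S (hS | ⟨γ, rfl⟩) a b
    · exact ⟨Nrm.of_comm (fun F => hcm a F S hS) fun F => hcm b F S hS,
        Nrm.of_comm (fun F => hcm a F _ (hp.Wadj S hS)) fun F => hcm b F _ (hp.Wadj S hS)⟩
    · have e : ∀ γ : Γ, Nrm (fun F => β a F) (fun F => β b F) (lam γ) := by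
        intro γ
        obtain ⟨σ, hσ⟩ := hlam γ⁻¹
        refine nrm_of_cov (hl1 γ) ?_ (fun F => hσ a F) fun F => hσ b F
        have := hl1 γ⁻¹
        rwa [inv_inv] at this
      refine ⟨e γ, ?_⟩
      rw [hp.adjL]
      exact e γ⁻¹
  · intro R hR T hT1 hT2
    exact hp.erg R (rc_moore hR) T (fun w hw => hT1 w (Or.inl hw))
      (fun γ => hT1 _ (Or.inr ⟨γ, rfl⟩)) hT2

end agr

section sd

variable {k : Type} [NontriviallyNormedField k] [ProperSpace k] {Γ K ι : Type} [Group Γ]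
  [NormedAddCommGroup K] [InnerProductSpace ℂ K] [CompleteSpace K] [Fintype ι]
  {π : G3 k →* (K →L[ℂ] K)} {lam : Γ →* (K →L[ℂ] K)} {W : Set (K →L[ℂ] K)} {Ω : ι → K}
  {q : Γ →* G3 k} {E : PP k → (CP k →⋆ₐ[ℂ] (K →L[ℂ] K))}

theorem agr_tw (hp : PicF π lam W Ω) {act' : Γ → PP k → PP k} (hNI : NIS act')
    (θ : G3 k ≃* G3 k) (hθ' : Continuous θ.symm)
    (cm : ∀ a f, Cm W (E a f))
    (cov : ∀ γ a, ∀ f f' : CP k, (∀ x, f' (act' γ x) = f x) → lam γ * E a f * lam γ⁻¹ = E a f')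
    (hact : ∀ γ, ∀ f : CP k, ∃ f' : CP k, ∀ x, f' (act' γ x) = f x)
    (hcov : ∀ g a f, π g * E a f = E (θ g • a) f * π g) :
    ∀ a b, a ≠ b → ∀ ξ, (∀ f, E a f ξ = E b f ξ) → ξ = 0 := by
  intro a b hab
  have hl1 : ∀ γ, lam γ⁻¹ * lam γ = 1 := fun γ => by rw [← map_mul, inv_mul_cancel, map_one]
  refine (agr_pic hp (by simp) θ hθ' hcov cm ?_ ?_ hab).1
  · intro γ
    choose σ hσ using hact γ
    refine ⟨σ, fun c F => ?_⟩
    rw [← cov γ c F (σ F) (hσ F), mul_assoc, hl1, mul_one]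
  · intro hc
    refine const_false (noC_of_pic hp hNI) (E (SD.ept k 0)) (fun γ f f' h => cov γ _ f f' h)
      (fun f w hw => cm _ f w hw) fun f g => ?_
    exact (comm_of_const (β := fun c F => E c F) (act := fun g c => θ g • c)
      (π := fun g => π g) hcov hc g (SD.ept k 0) f).symm

theorem agr_points (hp : PicF π lam W Ω) (hNI : NIS fun (γ : Γ) (x : PP k) => q γ • x)
    (cm : ∀ a f, Cm W (E a f))
    (cov : ∀ γ a f, lam γ * E a f * lam γ⁻¹ = E a (act (q γ) f))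
    (pcov : ∀ g a f, π g * E a f * π g⁻¹ = E (g • a) f) :
    ∀ a b, a ≠ b → ∀ ξ, (∀ f, E a f ξ = E b f ξ) → ξ = 0 := by
  refine agr_tw hp hNI (MulEquiv.refl _) continuous_id cm ?_ ?_ ?_
  · intro γ a f f' h
    rw [act_uniq (q γ) h, cov]
  · exact fun γ f => ⟨act (q γ) f, act_spec _ _⟩
  · intro g a f
    change π g * E a f = E (g • a) f * π g
    rw [← pcov, mul_assoc, ← map_mul, inv_mul_cancel, map_one, mul_one]

theorem agr_lines (hp : PicF π lam W Ω)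
    (hNI : NIS fun (γ : Γ) (x : PP k) => ((tau k).comp q) γ • x)
    (cm : ∀ a f, Cm W (E a f))
    (cov : ∀ γ a f, lam γ * E a f * lam γ⁻¹ = E a (act (((tau k).comp q) γ) f))
    (pcov : ∀ g a f, (π.comp (tau k)) g * E a f * (π.comp (tau k)) g⁻¹ = E (g • a) f) :
    ∀ a b, a ≠ b → ∀ ξ, (∀ f, E a f ξ = E b f ξ) → ξ = 0 := by
  refine agr_tw hp hNI (tauE k) tau_cont cm ?_ ?_ ?_
  · intro γ a f f' h
    rw [act_uniq _ h, cov]
  · exact fun γ f => ⟨act _ f, act_spec _ _⟩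
  · intro g a f
    change π g * E a f = E (tau k g • a) f * π g
    have h1 := pcov (tau k g) a f
    rw [← h1]
    change π g * E a f = π (tau k (tau k g)) * E a f * π (tau k (tau k g)⁻¹) * π g
    rw [map_inv (tau k), tau_tau, mul_assoc, ← map_mul, inv_mul_cancel, map_one, mul_one]

end sd

/-! ### The calculi -/

variable {k : Type} [NontriviallyNormedField k] [ProperSpace k] {Γ K ι : Type}
  [Group Γ] [NormedAddCommGroup K] [InnerProductSpace ℂ K] [CompleteSpace K] [Fintype ι]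

/-- Everything about one leg which does not depend on the target `q`, family of vectors. -/
structure SrcF (w : kˣ) (π : G3 k →* (K →L[ℂ] K)) (lam : Γ →* (K →L[ℂ] K))
    (W : Set (K →L[ℂ] K)) (Ω : ι → K) (mp : (Γ → ℝ) → (K →L[ℂ] K)) (Bd Bf : Set K) : Prop where
  pic : PicF π lam W Ω
  hw : ‖(w : k)‖ < 1
  mcov : ∀ γ (F : Γ → ℝ), (∀ g, |F g| ≤ 1) → lam γ * mp F * lam γ⁻¹ = mp (fun g => F (γ⁻¹ * g))
  mW : ∀ x ∈ W, ∀ F : Γ → ℝ, (∀ g, |F g| ≤ 1) → x * mp F = mp F * x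
  slow : Slow mp (fun g => π g) Bd
  loc : Loc2 mp (fun g => π g) Bd Bf
  esc : Esc (st mp) (fun g => π g) Bd (Subgroup.zpowers (bw w)⁻¹) (pw (bw w)⁻¹)
  esc' : Esc (st mp) (fun g => π g) Bd (Subgroup.zpowers (bw w)⁻¹) (pw (bw w))
  sym : SymF mp (fun g => π g) Ω
  fin : ∀ ξ, ∀ ε : ℝ, 0 < ε → ∃ F : Finset Γ, ‖st mp ((F : Set Γ))ᶜ ξ‖ ≤ ε
  om : ∀ i, ∃ c : ℂ, ∃ η ∈ Bf, Ω i = c • η

variable {w : kˣ} {π : G3 k →* (K →L[ℂ] K)} {lam : Γ →* (K →L[ℂ] K)} {W : Set (K →L[ℂ] K)}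
  {Ω : ι → K} {mp : (Γ → ℝ) → (K →L[ℂ] K)} {Bd Bf : Set K} {ms : G3 k → Set Γ → ℝ}
  {q : Γ →* G3 k} {G1 G2 : Γ → ℝ} {bp bp' : Γ → PP k}

/-- **Points.** -/
theorem efam_points (S : SrcF w π lam W Ω mp Bd Bf)
    (h : SysF mp (fun g => π g) Bd ms (Subgroup.zpowers (bw w)⁻¹) G1 G2)
    (hG : @GeoF Γ (PP k) _ _ (MulAction.compHom (PP k) q) G1 G2 bp) (hcut : DomCut q G1 G2 bp)
    (hNI : NIS fun (γ : Γ) (x : PP k) => q γ • x)
    (hfu : Full (st mp) (fun g => π g) G1 G2 (pw (bw w)⁻¹)) :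
    ∃ E, EFam w π lam W (st mp) q E := by
  obtain ⟨E₀, hE⟩ := limAt_gen S.hw h (leg_of_pic S.pic S.mcov S.mW) hG S.slow S.loc S.esc hfu
    hcut S.pic.adjP
  exact ⟨_, hE.efam (agr_points S.pic hNI (fun a f => hE.cm _ f) (fun γ a f => hE.cov γ _ f)
    (fun g a f => fam_pcov hE g a f))⟩

/-- **Lines.** -/
theorem efam_lines (S : SrcF w π lam W Ω mp Bd Bf)
    (h : SysF mp (fun g => π g) Bd ms (Subgroup.zpowers (bw w)⁻¹) G1 G2)
    (hG : @GeoF Γ (PP k) _ _ (MulAction.compHom (PP k) ((tau k).comp q)) G1 G2 bp)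
    (hcut : DomCut ((tau k).comp q) G1 G2 bp)
    (hNI : NIS fun (γ : Γ) (x : PP k) => ((tau k).comp q) γ • x)
    (hfu : Full (st mp) (fun g => π g) G1 G2 (pw (bw w))) :
    ∃ F, EFam w (π.comp (tau k)) lam W (st mp) ((tau k).comp q) F := by
  have hL : Leg mp (fun g => π g) (fun γ => lam γ) W := leg_of_pic S.pic S.mcov S.mW
  have h' : SysF mp (fun g => (π.comp (tau k)) g) Bd (fun d => ms (tau k d))
      (Subgroup.zpowers (bw w)⁻¹) G1 G2 :=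
    H76.TransD.sysF_sub (H76.TransD.sysF_comp (tau k) h) (zp_le w)
  have hL' : Leg mp (fun g => (π.comp (tau k)) g) (fun γ => lam γ) W :=
    H76.TransD.leg_comp (tau k) hL
  have hS' : Slow mp (fun g => (π.comp (tau k)) g) Bd := by
    refine H76.TransD.slow_comp (tau k) S.slow ?_
    have h1 := (tau_cont (k := k)).tendsto 1
    rwa [map_one] at h1
  have hl' : Loc2 mp (fun g => (π.comp (tau k)) g) Bd Bf := loc2_comp (θ := tau k) S.loc
  have he' : Esc (st mp) (fun g => (π.comp (tau k)) g) Bd (Subgroup.zpowers (bw w)⁻¹)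
      (pw (bw w)⁻¹) := by
    refine H76.TransD.esc_sub (H76.TransD.esc_comp (A := Subgroup.zpowers (bw w)⁻¹) (tau k) ?_)
      (pw_mem _)
    rw [pw_tau]
    exact S.esc'
  have hfu' : Full (st mp) (fun g => (π.comp (tau k)) g) G1 G2 (pw (bw w)⁻¹) := by
    refine (H76.TransD.full_comp (tau k)).2 ?_
    rw [pw_tau]
    exact hfu
  obtain ⟨E₀, hE⟩ := limAt_gen S.hw h' hL' hG hS' hl' he' hfu' hcut fun g => by
    change adjoint (π (tau k g)) = π (tau k g⁻¹)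
    rw [map_inv, S.pic.adjP]
  exact ⟨_, hE.efam (agr_lines S.pic hNI (fun a f => hE.cm _ f) (fun γ a f => hE.cov γ _ f)
    (fun g a f => fam_pcov hE g a f))⟩

/-- The field `nws`, for one vector of `Bf`. -/
theorem nws_dis (S : SrcF w π lam W Ω mp Bd Bf)
    (h : SysF mp (fun g => π g) Bd ms (Subgroup.zpowers (bw w)⁻¹) G1 G2)
    (hfu : Full (st mp) (fun g => π g) G1 G2 (pw (bw w)⁻¹))
    (hgap : ∀ u, ∃ C, ∀ g, |G2 (g * u) - G2 g| ≤ C)
    (hNW : ∀ r : ℝ, ∃ R : ℝ, ∀ γ, G2 γ ≤ r → NW R (q γ)) {η : K} (hη : η ∈ Bf) :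
    NWS w π η (st mp) q := by
  have hf : Full (st mp) (fun g => π g) G1 G2 (map (fun N : ℕ => (bw w ^ N)⁻¹) atTop) := by
    have e : map (fun N : ℕ => (bw w ^ N)⁻¹) atTop = pw ((bw w)⁻¹ : G3 k) := by
      rw [pw]
      congr 1
      funext N
      rw [inv_pow]
    rw [e]
    exact hfu
  intro g ε hε
  have h1 : ∀ ε : ℝ, 0 < ε → ∃ r, ∀ N : ℕ,
      ‖st mp {γ | r < G2 γ} (π (bw w ^ N)⁻¹ (π g⁻¹ η))‖ ≤ ε := fun ε hε =>
    H107.tail_base h.sys (wN := fun N : ℕ => (bw w ^ N)⁻¹) (fun N => by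
      rw [← inv_pow]; exact Subgroup.pow_mem _ (Subgroup.mem_zpowers _) N) hf S.fin (π g⁻¹ η) hε
  obtain ⟨r, hr⟩ := H107.tail_shift h.sys.prj (loc_at S.loc g) hgap
    (fun N : ℕ => π (bw w ^ N)⁻¹ (π g⁻¹ η)) (fun N => S.loc.map _ _ (S.loc.map _ _ hη)) h1 hε
  obtain ⟨R, hR⟩ := hNW r
  refine ⟨R, fun N => ?_⟩
  have e : π (g * bw w ^ N * g⁻¹)⁻¹ η = π g (π (bw w ^ N)⁻¹ (π g⁻¹ η)) := by
    have : (g * bw w ^ N * g⁻¹)⁻¹ = g * ((bw w ^ N)⁻¹ * g⁻¹) := by group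
    rw [this, map_mul, map_mul]
    rfl
  rw [e]
  refine (h.sys.prj.mono ?_ _).trans (hr N)
  intro γ hγ
  by_contra h3
  exact hγ (hR γ (not_lt.mp h3))

theorem nws_smul {η : K} (c : ℂ) (h : NWS w π η (st mp) q) : NWS w π (c • η) (st mp) q := by
  intro g ε hε
  obtain ⟨R, hR⟩ := h g (ε / (‖c‖ + 1)) (by positivity)
  refine ⟨R, fun N => ?_⟩
  rw [map_smul, map_smul, norm_smul]
  have h1 := hR N
  have h2 : ‖c‖ * (ε / (‖c‖ + 1)) ≤ ε := by
    rw [mul_div_assoc', div_le_iff₀ (by positivity)]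
    nlinarith [norm_nonneg c]
  exact (mul_le_mul_of_nonneg_left h1 (norm_nonneg c)).trans h2

/-- **The calculi of points and lines, in the type given by the fullness.** -/
theorem efams (S : SrcF w π lam W Ω mp Bd Bf)
    (h : SysF mp (fun g => π g) Bd ms (Subgroup.zpowers (bw w)⁻¹) G1 G2)
    (hG : @GeoF Γ (PP k) _ _ (MulAction.compHom (PP k) q) G1 G2 bp) (hcut : DomCut q G1 G2 bp)
    (hNI : NIS fun (γ : Γ) (x : PP k) => q γ • x)
    (hG' : @GeoF Γ (PP k) _ _ (MulAction.compHom (PP k) ((tau k).comp q)) G2 G1 bp')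
    (hcut' : DomCut ((tau k).comp q) G2 G1 bp')
    (hNI' : NIS fun (γ : Γ) (x : PP k) => ((tau k).comp q) γ • x)
    (hNW : ∀ r : ℝ, ∃ R : ℝ, ∀ γ, G2 γ ≤ r → NW R (q γ))
    (hfu : Full (st mp) (fun g => π g) G1 G2 (pw (bw w)⁻¹))
    (hfu' : Full (st mp) (fun g => π g) G2 G1 (pw (bw w))) :
    (∀ i, NWS w π (Ω i) (st mp) q) ∧ ∃ E F, EFam w π lam W (st mp) q E ∧
      EFam w (π.comp (tau k)) lam W (st mp) ((tau k).comp q) F := by
  obtain ⟨E, hE⟩ := efam_points S h hG hcut hNI hfu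
  obtain ⟨F, hF⟩ := efam_lines S (H76.TransD.sysF_swap h) hG' hcut' hNI' hfu'
  refine ⟨fun i => ?_, E, F, hE, hF⟩
  obtain ⟨c, η, hη, e⟩ := S.om i
  rw [e]
  refine nws_smul c (nws_dis S h hfu (fun u => ?_) hNW hη)
  letI := MulAction.compHom (PP k) q
  obtain ⟨C, hC⟩ := hG.gap 1 u
  exact ⟨C, fun g => by have := (hC g).2; rwa [one_mul] at this⟩

/-- **The type dichotomy and the calculi, all `t`.** -/
theorem dis (S : SrcF w π lam W Ω mp Bd Bf)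
    (h : SysF mp (fun g => π g) Bd ms (Subgroup.zpowers (bw w)⁻¹) G1 G2)
    (hG : @GeoF Γ (PP k) _ _ (MulAction.compHom (PP k) q) G1 G2 bp) (hcut : DomCut q G1 G2 bp)
    (hNI : NIS fun (γ : Γ) (x : PP k) => q γ • x)
    (hG' : @GeoF Γ (PP k) _ _ (MulAction.compHom (PP k) ((tau k).comp q)) G2 G1 bp')
    (hcut' : DomCut ((tau k).comp q) G2 G1 bp')
    (hNI' : NIS fun (γ : Γ) (x : PP k) => ((tau k).comp q) γ • x)
    (hNW : ∀ r : ℝ, ∃ R : ℝ, ∀ γ, G2 γ ≤ r → NW R (q γ))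
    (hNW' : ∀ r : ℝ, ∃ R : ℝ, ∀ γ, G1 γ ≤ r → NW R (((tau k).comp q) γ))
    {C : ℝ} (hC : ∀ g, |G1 g⁻¹ - G2 g| ≤ C ∧ |G2 g⁻¹ - G1 g| ≤ C) :
    ∃ q' : Γ →* G3 k, (q' = q ∨ q' = (tau k).comp q) ∧ (∀ i, NWS w π (Ω i) (st mp) q') ∧
      ∃ E F, EFam w π lam W (st mp) q' E ∧
        EFam w (π.comp (tau k)) lam W (st mp) ((tau k).comp q') F := by
  have hfin : ∀ r, (FF G1 G2 r).Finite := by
    letI := MulAction.compHom (PP k) q
    exact hG.fin
  have key : (Full (st mp) (fun g => π g) G1 G2 (pw (bw w)⁻¹) ∧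
      Full (st mp) (fun g => π g) G2 G1 (pw (bw w))) ∨
      (Full (st mp) (fun g => π g) G2 G1 (pw (bw w)⁻¹) ∧
      Full (st mp) (fun g => π g) G1 G2 (pw (bw w))) := by
    letI := MulAction.compHom (PP k) q
    have he' : Esc (st mp) (fun g => π g) Bd (Subgroup.zpowers (bw w)⁻¹)
        (pw ((bw w)⁻¹)⁻¹) := by rw [inv_inv]; exact S.esc'
    have h1 := dicho_pic (bp := bp) S.pic (b := (bw w)⁻¹) h hG S.mcov S.mW S.slow S.esc he'
      (fun F C hF hN v ξ η => lu1 h S.loc hfin S.esc F C hF hN v ξ η)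
      (fun F C hF hN v ξ η => lu1 h S.loc hfin he' F C hF hN v ξ η)
      S.sym hC hNI (N := NN w) (N' := NN' w) (L := LL w) (fun n hn => hn) (fun n hn => hn)
      (fun n hn => hn) (moore_NN w S.hw) (moore_NN' w S.hw) (closure_top w S.hw)
    rw [inv_inv] at h1
    exact h1
  rcases key with ⟨f1, f2⟩ | ⟨f1, f2⟩
  · exact ⟨q, Or.inl rfl, efams S h hG hcut hNI hG' hcut' hNI' hNW f1 f2⟩
  · refine ⟨(tau k).comp q, Or.inr rfl, ?_⟩
    have e := tau_comp_comp q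
    refine efams (bp := bp') (bp' := bp) S (H76.TransD.sysF_swap h) hG' hcut' hNI' ?_ ?_ ?_ hNW'
      f1 f2
    · rw [e]; exact hG
    · rw [e]; exact hcut
    · rw [e]; exact hNI

end Vale.Agent.P092.H458.DisT
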