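import Vale.Agent.P092.H458.T.Half
import Vale.Agent.P092.H458.T.Hon
import Vale.Agent.P092.H962.C.PicT

/-!
P092 (helper458), Team D, all `t`, [D-T-HALF] for the model `L²(G/Γ; HH(α, β, γ))`: the picture is
helper962's `pic2F_HH`, the honest family is `Hon.hon`.
-/

set_option linter.all false

open scoped InnerProductSpace ENNReal LinearAlgebra.Projectivization
open Filter Topology ContinuousLinearMap MeasureTheory TopologicalSpace

namespace Vale.Agent.P092.H458.HalfT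

open Vale.Agent.P092.SD Vale.Agent.P092.SR Vale.Agent.P092.H160 Vale.Agent.P092.H103
open Vale.Agent.P092.H962
open Vale.Agent.P092.H859.CL hiding cfc
open Vale.Agent.P092.RC (XG OmG piT lamT adjV3 KG)
open Vale.Agent.P092.H933 (LocK)
open Vale.Agent.P092.H21 (Hon mT)

section con

variable {k : Type} [NontriviallyNormedField k] [ProperSpace k] [LocallyCompactSpace (G3 k)]
  [SecondCountableTopology (G3 k)] [MeasurableSpace (G3 k)] [BorelSpace (G3 k)]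
  {Γ : Subgroup (G3 k)} [DiscreteTopology Γ] [Countable Γ] [MeasurableSpace (G3 k ⧸ Γ)]
  [BorelSpace (G3 k ⧸ Γ)] {ν : Measure (G3 k ⧸ Γ)} [IsProbabilityMeasure ν]
  (hν : ∀ g : G3 k, ν.map (fun x => g • x) = ν)
  (hΓ : ∀ g : Γ, g ≠ 1 → Set.Infinite {y : Γ | ∃ h, y = h * g * h⁻¹})
  {Λ : Type} [Group Λ] [Countable Λ]
  (hΛ : ∀ s : Λ, s ≠ 1 → Set.Infinite {y : Λ | ∃ h, y = h * s * h⁻¹})
  {I : Type} [Fintype I] {α : Γ → (Ell2 (I × Λ) →L[ℂ] Ell2 (I × Λ))} (hα : AF α)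

include hΓ hΛ in
/-- **Leg 1 of the model for an honest family, any local field, all `t`.** -/
theorem leg_HH (hk : LocK k) [MeasurableSpace k] {μ : Measure k} {w : kˣ} (hw : ‖(w : k)‖ < 1)
    {ι : Type} [Fintype ι] {ξ : ι → HH (PT α α α)}
    (hT : Tri (V3 hα hα hα) (A3R hα hα hα) (B3R hα hα hα) ξ)
    (hh : Hon (A3R hα hα hα) (B3R hα hα hα) ξ)
    (size : ∀ q : Γ →* G3 k, q = Γ.subtype ∨ q = (tau k).comp Γ.subtype → ∀ i,
      SIZE w (piT hν hα) (OmG hν ξ i) (st (mT (H85.cdat ν hν) hT)) q)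
    (orb : ORBF μ w (piT hν hα) (lamT hν (A3R hα hα hα))
      (XG hν (HH (PT α α α)) ∪ Set.range (lamT hν (B3R hα hα hα))) (OmG hν ξ)) :
    ∃ (q : Γ →* G3 k) (E F : PP k → (CP k →⋆ₐ[ℂ]
        (KG hν (HH (PT α α α)) →L[ℂ] KG hν (HH (PT α α α))))),
      (q = Γ.subtype ∨ q = (tau k).comp Γ.subtype) ∧
      LegF μ w (piT hν hα) (lamT hν (A3R hα hα hα))
        (XG hν (HH (PT α α α)) ∪ Set.range (lamT hν (B3R hα hα hα))) (OmG hν ξ)
        (st (mT (H85.cdat ν hν) hT)) q E F := by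
  haveI : NoncompactSpace (G3 k) :=
    H34.PicC.sl_noncompact (ι := Fin 3) (k := k) (show (0 : Fin 3) ≠ 1 by decide)
  obtain ⟨m, m', ζ, h'⟩ := exists_tri' hα hα hα hΛ
  have hp := (RC.pic2F_HH hν hα hα hα hΓ hΛ (adjV3 hα) hT).leg₁
  have hc0 := RC.nrm_ne hT.ne
  exact half_T hν hT hh h' hΓ hk hw _ hc0 (fun i => norm_nrm_le ξ i) hp size orb

include hΓ hΛ in
/-- **[D-T-HALF]** -/
theorem exists_leg (hk : LocK k) [MeasurableSpace k] {μ : Measure k} {w : kˣ}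
    (hw : ‖(w : k)‖ < 1)
    (size : ∀ (m : ℕ) (ξ : Fin m → HH (PT α α α))
      (hT : Tri (V3 hα hα hα) (A3R hα hα hα) (B3R hα hα hα) ξ),
      Hon (A3R hα hα hα) (B3R hα hα hα) ξ →
      ∀ q : Γ →* G3 k, q = Γ.subtype ∨ q = (tau k).comp Γ.subtype → ∀ i,
      SIZE w (piT hν hα) (OmG hν ξ i) (st (mT (H85.cdat ν hν) hT)) q)
    (orb : ∀ (m : ℕ) (ξ : Fin m → HH (PT α α α)),
      Tri (V3 hα hα hα) (A3R hα hα hα) (B3R hα hα hα) ξ →
      ORBF μ w (piT hν hα) (lamT hν (A3R hα hα hα))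
        (XG hν (HH (PT α α α)) ∪ Set.range (lamT hν (B3R hα hα hα))) (OmG hν ξ)) :
    ∃ (m : ℕ) (ξ : Fin m → HH (PT α α α))
      (hT : Tri (V3 hα hα hα) (A3R hα hα hα) (B3R hα hα hα) ξ)
      (q : Γ →* G3 k) (E F : PP k → (CP k →⋆ₐ[ℂ]
        (KG hν (HH (PT α α α)) →L[ℂ] KG hν (HH (PT α α α))))),
      Hon (A3R hα hα hα) (B3R hα hα hα) ξ ∧
      (q = Γ.subtype ∨ q = (tau k).comp Γ.subtype) ∧
      LegF μ w (piT hν hα) (lamT hν (A3R hα hα hα))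
        (XG hν (HH (PT α α α)) ∪ Set.range (lamT hν (B3R hα hα hα))) (OmG hν ξ)
        (st (mT (H85.cdat ν hν) hT)) q E F := by
  obtain ⟨m, ξ, hT, hh⟩ := Vale.Agent.P092.H458.Hon.hon hα hα hΛ
  obtain ⟨q, E, F, hq, hL⟩ := leg_HH hν hΓ hΛ hα hk hw hT hh (size m ξ hT hh) (orb m ξ hT)
  exact ⟨m, ξ, hT, q, E, F, hh, hq, hL⟩

end con

end Vale.Agent.P092.H458.HalfT
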