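import Vale.Agent.P092.H962.MT3
import Vale.Agent.P092.H962.EqP

/-!
P092 (helper458) [T-HON], part 1: left and right multiplications on `ℓ²(I × (J × Λ))` and the
orthonormal basis `b g` of `L²(p M_I(L(Λ)) p)` given by an amplified frame.
-/

set_option linter.all false

open scoped InnerProductSpace ENNReal
open Filter Topology ContinuousLinearMap
open Vale.Agent.P092.H160 Vale.Agent.P092.H103 Vale.Agent.P092.H962

namespace Vale.Agent.P092.H458.Hon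

section leg

variable {I J Λ : Type} [Group Λ]

/-- `(i, (j, a)) ↦ ((i, a), j)` -/
def eL (I J Λ : Type) : I × (J × Λ) ≃ (I × Λ) × J where
  toFun p := ((p.1, p.2.2), p.2.1)
  invFun q := (q.1.1, (q.2, q.1.2))
  left_inv p := rfl
  right_inv q := rfl

/-- left multiplication -/
noncomputable def Lm (J : Type) (x : Ell2 (I × Λ) →L[ℂ] Ell2 (I × Λ)) :
    Ell2 (I × (J × Λ)) →L[ℂ] Ell2 (I × (J × Λ)) :=
  rei (eL I J Λ).symm ∘L (tens x 1 ∘L rei (eL I J Λ))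

/-- right multiplication -/
noncomputable def Rm (I : Type) (y : Ell2 (J × Λ) →L[ℂ] Ell2 (J × Λ)) :
    Ell2 (I × (J × Λ)) →L[ℂ] Ell2 (I × (J × Λ)) := tens 1 (JT y)

theorem Lm_apply (x : Ell2 (I × Λ) →L[ℂ] Ell2 (I × Λ)) (v : Ell2 (I × (J × Λ))) :
    Lm J x v = rei (eL I J Λ).symm (tens x 1 (rei (eL I J Λ) v)) := rfl

theorem Lm_mul (x y : Ell2 (I × Λ) →L[ℂ] Ell2 (I × Λ)) : Lm J (x * y) = Lm J x * Lm J y := by
  ext1 v
  change Lm J (x * y) v = Lm J x (Lm J y v)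
  rw [Lm_apply, Lm_apply, Lm_apply, rei_self_symm]
  have h : tens (x * y) (1 : Ell2 J →L[ℂ] Ell2 J) = tens x 1 * tens y 1 := by
    rw [← tens_mul, one_mul]
  rw [h]
  rfl

theorem Lm_adj (x : Ell2 (I × Λ) →L[ℂ] Ell2 (I × Λ)) :
    adjoint (Lm J x) = Lm J (adjoint x) := by
  refine (ContinuousLinearMap.eq_adjoint_iff _ _).mpr (fun u v => ?_) |>.symm
  have h1 : ∀ (a : Ell2 (I × (J × Λ))) (b : Ell2 ((I × Λ) × J)),
      ⟪rei (eL I J Λ).symm b, a⟫_ℂ = ⟪b, rei (eL I J Λ) a⟫_ℂ := by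
    intro a b
    rw [← adjoint_rei, adjoint_inner_left]
  have h2 : ∀ (a : Ell2 (I × (J × Λ))) (b : Ell2 ((I × Λ) × J)),
      ⟪a, rei (eL I J Λ).symm b⟫_ℂ = ⟪rei (eL I J Λ) a, b⟫_ℂ := by
    intro a b
    rw [← adjoint_rei, adjoint_inner_right]
  have h3 : tens (adjoint x) (1 : Ell2 J →L[ℂ] Ell2 J) =
      adjoint (tens x 1) := by rw [adjoint_tens, adjoint_one]
  rw [Lm_apply, Lm_apply, h1, h2, h3, adjoint_inner_left]

theorem Rm_mul (x y : Ell2 (J × Λ) →L[ℂ] Ell2 (J × Λ)) : Rm I (x * y) = Rm I x * Rm I y := by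
  rw [Rm, Rm, Rm, JT_mul, ← tens_mul, one_mul]

theorem Rm_adj (x : Ell2 (J × Λ) →L[ℂ] Ell2 (J × Λ)) :
    adjoint (Rm I x) = Rm I (adjoint x) := by
  rw [Rm, adjoint_tens, JT_adj, adjoint_one, Rm]

theorem Lm_coord (x : Ell2 (I × Λ) →L[ℂ] Ell2 (I × Λ)) (i i' : I) (j j' : J) (a a' : Λ) :
    Lm J x (dl (i, (j, a))) (i', (j', a')) = x (dl (i, a)) (i', a') * (dl j : Ell2 J) j' := by
  rw [Lm_apply, rei_dl]
  change tens x 1 (dl ((i, a), j)) ((i', a'), j') = _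
  rw [tens_dl]
  rfl

theorem Rm_coord (y : Ell2 (J × Λ) →L[ℂ] Ell2 (J × Λ)) (i i' : I) (j j' : J) (a a' : Λ) :
    Rm I y (dl (i, (j, a))) (i', (j', a')) = (dl i : Ell2 I) i' * JT y (dl (j, a)) (j', a') := by
  rw [Rm, tens_dl]
  rfl

/-- the bijection `u ↦ a' u⁻¹ a` -/
def sg (a a' : Λ) : Λ ≃ Λ where
  toFun u := a' * u⁻¹ * a
  invFun v := a * v⁻¹ * a'
  left_inv u := by simp [mul_assoc]
  right_inv v := by simp [mul_assoc]

theorem comm_LR {x : Ell2 (I × Λ) →L[ℂ] Ell2 (I × Λ)} (hx : EqM x)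
    {y : Ell2 (J × Λ) →L[ℂ] Ell2 (J × Λ)} (hy : EqM y) :
    Lm J x * Rm I y = Rm I y * Lm J x := by
  apply op_ext
  intro p
  apply ext_inner_dl
  intro q
  have g1 : Lm J x (Rm I y (dl p)) q = ⟪Lm J (adjoint x) (dl q), Rm I y (dl p)⟫_ℂ := by
    rw [← inner_dl, ← Lm_adj, adjoint_inner_left]
  have g2 : Rm I y (Lm J x (dl p)) q = ⟪Rm I (adjoint y) (dl q), Lm J x (dl p)⟫_ℂ := by
    rw [← inner_dl, ← Rm_adj, adjoint_inner_left]
  refine g1.trans (Eq.trans ?_ g2.symm)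
  clear g1 g2
  rw [inner_eq, inner_eq]
  obtain ⟨i, ⟨j, a⟩⟩ := p
  obtain ⟨i', ⟨j', a'⟩⟩ := q
  have hi1 : Function.Injective (fun u : Λ => ((i, (j', u)) : I × (J × Λ))) := by
    intro u v h
    simpa using h
  have hi2 : Function.Injective (fun u : Λ => ((i', (j, u)) : I × (J × Λ))) := by
    intro u v h
    simpa using h
  rw [← hi1.tsum_eq, ← hi2.tsum_eq, ← (sg a' a).tsum_eq]
  · refine tsum_congr fun u => ?_
    rw [Rm_coord, Lm_coord, Rm_coord, Lm_coord, dl_self, dl_self, dl_self, dl_self, map_mul,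
      map_mul, map_one, coef_adj, ← JT_adj, coef_adj]
    have e1 : x (dl (i, a * u⁻¹ * a')) (i', a') = x (dl (i, a)) (i', u) := by
      rw [← hx.coef i i' (a * u⁻¹ * a') a' (a'⁻¹ * u)]
      simp
    have e2 : JT y (dl (j, a)) (j', a * u⁻¹ * a') = JT y (dl (j, u)) (j', a') := by
      rw [← hy.coefJ j j' a (a * u⁻¹ * a') (u * a⁻¹)]
      simp [mul_assoc]
    change 1 * JT y (dl (j, a)) (j', a * u⁻¹ * a') * (x (dl (i, a * u⁻¹ * a')) (i', a') * 1) = _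
    rw [e1, e2]
    ring
  · rintro ⟨i'', ⟨j'', a''⟩⟩ hne
    rw [Function.mem_support] at hne
    refine ⟨a'', ?_⟩
    rw [Lm_coord, Rm_coord] at hne
    have g1 : (dl i' : Ell2 I) i'' ≠ 0 := fun h => hne (by rw [h]; simp)
    have g3 : (dl j : Ell2 J) j'' ≠ 0 := fun h => hne (by rw [h]; simp)
    have g1 := dl_val_one g1
    have g3 := dl_val_one g3
    subst g1 g3
    rfl
  · rintro ⟨i'', ⟨j'', a''⟩⟩ hne
    rw [Function.mem_support] at hne
    refine ⟨a'', ?_⟩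
    rw [Lm_coord, Rm_coord] at hne
    have g1 : (dl i : Ell2 I) i'' ≠ 0 := fun h => hne (by rw [h]; simp)
    have g3 : (dl j' : Ell2 J) j'' ≠ 0 := fun h => hne (by rw [h]; simp)
    have g1 := dl_val_one g1
    have g3 := dl_val_one g3
    subst g1 g3
    rfl

/-- `u ↦ u ⊗ δ_j` -/
noncomputable def em (j : J) : Ell2 (I × Λ) →L[ℂ] Ell2 (I × (J × Λ)) :=
  rei (eL I J Λ).symm ∘L tvl (dl j)

theorem em_apply (j : J) (u : Ell2 (I × Λ)) :
    (em j u : Ell2 (I × (J × Λ))) = rei (eL I J Λ).symm (tv u (dl j)) := rfl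

theorem em_dl (i : I) (j : J) (a : Λ) :
    (em j (dl (i, a)) : Ell2 (I × (J × Λ))) = dl (i, (j, a)) := by
  rw [em_apply, ← dl_prod, rei_dl]
  rfl

theorem Lm_em (x : Ell2 (I × Λ) →L[ℂ] Ell2 (I × Λ)) (j : J) (u : Ell2 (I × Λ)) :
    Lm J x (em j u) = em j (x u) := by
  rw [Lm_apply, em_apply, rei_self_symm, tens_tv]
  rfl

theorem inner_em (j j' : J) (u v : Ell2 (I × Λ)) :
    ⟪(em j u : Ell2 (I × (J × Λ))), em j' v⟫_ℂ = ⟪u, v⟫_ℂ * (dl j' : Ell2 J) j := by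
  rw [em_apply, em_apply, inner_rei, inner_tv, inner_dl]

end leg

section one

variable {I Λ : Type} [Group Λ] [Fintype I]

/-- the vector `1` of `ℓ²(I × (I × Λ)) = L²(M_I(L(Λ)))` -/
noncomputable def on (I Λ : Type) [Group Λ] [Fintype I] : Ell2 (I × (I × Λ)) :=
  ∑ i, em i (dl (i, 1))

theorem Lm_on (x : Ell2 (I × Λ) →L[ℂ] Ell2 (I × Λ)) :
    Lm I x (on I Λ) = ∑ i, em i (x (dl (i, 1))) := by
  rw [on, map_sum]
  exact Finset.sum_congr rfl fun i _ => Lm_em _ _ _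

theorem inner_Lm_on (x y : Ell2 (I × Λ) →L[ℂ] Ell2 (I × Λ)) :
    ⟪Lm I x (on I Λ), Lm I y (on I Λ)⟫_ℂ = ∑ i, ⟪x (dl (i, 1)), y (dl (i, 1))⟫_ℂ := by
  classical
  rw [Lm_on, Lm_on, sum_inner]
  refine Finset.sum_congr rfl fun i _ => ?_
  rw [inner_sum, Finset.sum_eq_single i]
  · rw [inner_em, dl_self, mul_one]
  · intro j _ hj
    rw [inner_em, dl_ne hj.symm, mul_zero]
  · intro h
    exact absurd (Finset.mem_univ i) h

theorem on_eq : on I Λ = ∑ i, dl (i, (i, (1 : Λ))) := by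
  rw [on]
  exact Finset.sum_congr rfl fun i _ => em_dl _ _ _

theorem Rm_on {y : Ell2 (I × Λ) →L[ℂ] Ell2 (I × Λ)} (hy : EqM y) :
    Rm I y (on I Λ) = Lm I (adjoint y) (on I Λ) := by
  classical
  apply ext_inner_dl
  rintro ⟨i', ⟨j', a'⟩⟩
  rw [on_eq, map_sum, map_sum, lp.coeFn_sum, lp.coeFn_sum, Finset.sum_apply, Finset.sum_apply,
    Finset.sum_eq_single i', Finset.sum_eq_single j']
  · rw [Rm_coord, Lm_coord, dl_self, dl_self, one_mul, mul_one, JT_coord, inv_one]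
    have h1 : adjoint y (dl (j', (1 : Λ))) (i', a') = (starRingEnd ℂ) (y (dl (i', a')) (j', 1)) := by
      have := coef_adj y (j', (1 : Λ)) (i', a')
      rw [← this, Complex.conj_conj]
    rw [h1, ← hy.coef i' j' a' 1 a'⁻¹, mul_inv_cancel, one_mul]
  · intro j _ hj
    rw [Lm_coord, dl_ne hj.symm, mul_zero]
  · intro h
    exact absurd (Finset.mem_univ _) h
  · intro j _ hj
    rw [Rm_coord, dl_ne hj.symm, zero_mul]
  · intro h
    exact absurd (Finset.mem_univ _) h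

end one

section basis

variable {Γ Λ I : Type} [Group Γ] [Group Λ] [Fintype I]
  {α : Γ → (Ell2 (I × Λ) →L[ℂ] Ell2 (I × Λ))} (hα : AF α)

/-- the orthonormal basis of `L²(p M_I(L(Λ)) p)` -/
noncomputable def bb (α : Γ → (Ell2 (I × Λ) →L[ℂ] Ell2 (I × Λ))) (g : Γ) :
    Ell2 (I × (I × Λ)) :=
  ((Real.sqrt (dm α))⁻¹ : ℂ) • Lm I (α g⁻¹) (on I Λ)

include hα

theorem bb_R (g h : Γ) : Rm I (α g) (bb α h) = bb α (g * h) := by
  have h1 : Rm I (α g) (Lm I (α h⁻¹) (on I Λ)) = Lm I (α h⁻¹) (Rm I (α g) (on I Λ)) :=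
    (congrArg (fun T : Ell2 (I × (I × Λ)) →L[ℂ] Ell2 (I × (I × Λ)) => T (on I Λ))
      (comm_LR (hα.comm h⁻¹) (hα.comm g))).symm
  rw [bb, map_smul, h1, Rm_on (hα.comm g), hα.adj, bb, mul_inv_rev, hα.mul, Lm_mul]
  rfl

theorem bb_L (g : Γ) : Lm I (α 1) (bb α g) = bb α g := by
  rw [bb, map_smul]
  congr 1
  have h1 : Lm I (α 1 * α g⁻¹) (on I Λ) = Lm I (α 1) (Lm I (α g⁻¹) (on I Λ)) := by
    rw [Lm_mul]; rfl
  rw [← h1, hα.p_mul]

theorem bb_inner [DecidableEq Γ] (g h : Γ) : ⟪bb α g, bb α h⟫_ℂ = if g = h then 1 else 0 := by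
  have hd := dm_pos hα
  rw [bb, bb, inner_smul_left, inner_smul_right, inner_Lm_on, H58.sum_inner_al hα, inv_inv]
  by_cases hgh : g = h
  · subst hgh
    rw [mul_inv_cancel, tr_p hα, if_pos rfl, map_inv₀, Complex.conj_ofReal, ← mul_assoc,
      ← mul_inv, ← Complex.ofReal_mul, Real.mul_self_sqrt hd.le]
    exact inv_mul_cancel₀ (by exact_mod_cast hd.ne')
  · rw [hα.tr0, mul_zero, mul_zero, if_neg hgh]
    intro h0
    exact hgh (mul_inv_eq_one.1 h0)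

theorem bb_on : Orthonormal ℂ (bb α) := by
  classical
  rw [orthonormal_iff_ite]
  exact fun g h => bb_inner hα g h

theorem bb_total (v : Ell2 (I × (I × Λ))) :
    Lm I (α 1) (Rm I (α 1) v) ∈ (Submodule.span ℂ (Set.range (bb α))).topologicalClosure := by
  classical
  set F := (Submodule.span ℂ (Set.range (bb α))).topologicalClosure with hF
  have hd := dm_pos hα
  have hs : ((Real.sqrt (dm α) : ℝ) : ℂ) ≠ 0 := by
    exact_mod_cast (Real.sqrt_pos.2 hd).ne'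
  have hg : ∀ g, Lm I (α g) (on I Λ) ∈ F := by
    intro g
    have h1 : Lm I (α g) (on I Λ) = (Real.sqrt (dm α) : ℂ) • bb α g⁻¹ := by
      rw [bb, smul_smul, mul_inv_cancel₀ hs, one_smul, inv_inv]
    rw [h1]
    exact F.smul_mem _ (Submodule.le_topologicalClosure _ (Submodule.subset_span ⟨_, rfl⟩))
  -- bounded elements
  have hX : ∀ X : Ell2 (I × Λ) →L[ℂ] Ell2 (I × Λ), EqM X → α 1 * X = X → X * α 1 = X →
      Lm I X (on I Λ) ∈ F := by
    intro X hXe h1 h2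
    obtain ⟨a, ha⟩ := hα.exp X hXe h1 h2
    have h3 : HasSum (fun g => ∑ i, em i (a g • α g (dl (i, 1))))
        (∑ i : I, (em i (X (dl (i, 1))) : Ell2 (I × (I × Λ)))) :=
      hasSum_sum fun i _ => (em i).hasSum (ha i)
    rw [← Lm_on] at h3
    have h4 : ∀ g, ∑ i : I, (em i (a g • α g (dl (i, 1))) : Ell2 (I × (I × Λ))) =
        a g • Lm I (α g) (on I Λ) := by
      intro g
      rw [Lm_on, Finset.smul_sum]
      exact Finset.sum_congr rfl fun i _ => map_smul _ _ _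
    rw [funext h4] at h3
    refine (Submodule.isClosed_topologicalClosure _).mem_of_tendsto h3
      (Eventually.of_forall fun s => ?_)
    exact F.sum_mem fun g _ => F.smul_mem _ (hg g)
  have hdl : ∀ q : I × (I × Λ), Lm I (α 1) (Rm I (α 1) (dl q)) ∈ F := by
    rintro ⟨i, ⟨j, a⟩⟩
    have hmu : EqM (H58.mu i j a : Ell2 (I × Λ) →L[ℂ] Ell2 (I × Λ)) := H58.cm_iff.1 (H58.mu_cm _ _ _)
    have h1 : (dl (i, (j, a)) : Ell2 (I × (I × Λ))) = Lm I (H58.mu i j a) (on I Λ) := by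
      rw [Lm_on, Finset.sum_eq_single j]
      · rw [H58.mu_dl_self, mul_one, em_dl]
      · intro j' _ hj
        rw [H58.mu_dl_ne hj.symm, map_zero]
      · intro h
        exact absurd (Finset.mem_univ _) h
    have h2 : Rm I (α 1) (Lm I (H58.mu i j a) (on I Λ)) =
        Lm I (H58.mu i j a) (Rm I (α 1) (on I Λ)) :=
      (congrArg (fun T : Ell2 (I × (I × Λ)) →L[ℂ] Ell2 (I × (I × Λ)) => T (on I Λ))
        (comm_LR hmu (hα.comm 1))).symm
    have h3 : Lm I (α 1) (Lm I (H58.mu i j a) (Lm I (α 1) (on I Λ))) =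
        Lm I (α 1 * (H58.mu i j a * α 1)) (on I Λ) := by
      rw [Lm_mul, Lm_mul]; rfl
    rw [h1, h2, Rm_on (hα.comm 1), hα.p_adj, h3]
    refine hX _ ((hα.comm 1).mul (hmu.mul (hα.comm 1))) ?_ ?_
    · rw [← mul_assoc, hα.pp]
    · simp only [mul_assoc]
      rw [hα.pp]
  have h5 := (Lm I (α 1) ∘L Rm I (α 1)).hasSum (hasSum_dl v)
  refine (Submodule.isClosed_topologicalClosure _).mem_of_tendsto h5
    (Eventually.of_forall fun s => ?_)
  refine F.sum_mem fun q _ => ?_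
  rw [map_smul]
  exact F.smul_mem _ (hdl q)

/-- Parseval -/
theorem bb_frame (η : Ell2 (I × (I × Λ))) :
    HasSum (fun g => ‖⟪bb α g, η⟫_ℂ‖ ^ 2) (‖(Lm I (α 1) * Rm I (α 1)) η‖ ^ 2) := by
  classical
  set F := (Submodule.span ℂ (Set.range (bb α))).topologicalClosure with hF
  haveI : CompleteSpace F := (Submodule.isClosed_topologicalClosure _).completeSpace_coe
  have hmem : ∀ g, bb α g ∈ F := fun g =>
    Submodule.le_topologicalClosure _ (Submodule.subset_span ⟨_, rfl⟩)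
  set bF : Γ → F := fun g => ⟨bb α g, hmem g⟩ with hbF
  have hbo : Orthonormal ℂ bF := by
    rw [orthonormal_iff_ite]
    intro g h
    rw [Submodule.coe_inner]
    exact bb_inner hα g h
  have hbt : (⊤ : Submodule ℂ F) ≤ (Submodule.span ℂ (Set.range bF)).topologicalClosure := by
    intro x _
    obtain ⟨x, hx⟩ := x
    rw [← SetLike.mem_coe, Submodule.topologicalClosure_coe, Metric.mem_closure_iff]
    intro ε hε
    have hx' : x ∈ closure ((Submodule.span ℂ (Set.range (bb α)) : Submodule ℂ _) :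
      Set (Ell2 (I × (I × Λ)))) := hx
    obtain ⟨y, hy, hxy⟩ := Metric.mem_closure_iff.1 hx' ε hε
    have hyF : y ∈ F := Submodule.le_topologicalClosure _ hy
    refine ⟨⟨y, hyF⟩, ?_, hxy⟩
    have h1 : Submodule.span ℂ (Set.range (bb α)) =
        (Submodule.span ℂ (Set.range bF)).map F.subtype := by
      rw [Submodule.map_span, ← Set.range_comp]
      rfl
    rw [SetLike.mem_coe, h1] at hy
    obtain ⟨z, hz, hzy⟩ := hy
    have : z = ⟨y, hyF⟩ := Subtype.ext hzy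
    rw [← this]
    exact hz
  set B : HilbertBasis Γ ℂ F := HilbertBasis.mk hbo hbt with hB
  set η' : F := ⟨Lm I (α 1) (Rm I (α 1) η), bb_total hα η⟩ with hη'
  have h1 : ∀ g, ⟪bb α g, η⟫_ℂ = ⟪B g, η'⟫_ℂ := by
    intro g
    rw [hB, HilbertBasis.coe_mk, Submodule.coe_inner]
    change _ = ⟪bb α g, Lm I (α 1) (Rm I (α 1) η)⟫_ℂ
    rw [← adjoint_inner_left, Lm_adj, hα.p_adj, bb_L hα, ← adjoint_inner_left, Rm_adj, hα.p_adj,
      bb_R hα, one_mul]
  have h2 := B.hasSum_inner_mul_inner η' η'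
  have h3 : (fun i => ⟪η', B i⟫_ℂ * ⟪B i, η'⟫_ℂ) = fun g => ((‖⟪bb α g, η⟫_ℂ‖ ^ 2 : ℝ) : ℂ) := by
    funext g
    have e1 := (inner_conj_symm (𝕜 := ℂ) (E := F) η' (B g)).symm
    rw [h1]
    refine (congrArg (fun z : ℂ => z * ⟪B g, η'⟫_ℂ) e1).trans ?_
    rw [mul_comm, Complex.mul_conj, Complex.normSq_eq_norm_sq]
  rw [h3, inner_self_eq_norm_sq_to_K] at h2
  have h4 : ‖(Lm I (α 1) * Rm I (α 1)) η‖ = ‖η'‖ := rfl
  have h5 : ((‖η'‖ : ℂ)) ^ 2 = ((‖η'‖ ^ 2 : ℝ) : ℂ) := by push_cast; rfl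
  rw [h4]
  refine Complex.hasSum_ofReal.1 ?_
  rw [← h5]
  exact h2

end basis

end Vale.Agent.P092.H458.Hon
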