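import Vale.Agent.P092.H458.T.Leg

/-!
P092 (helper458) [T-HON], part 2: the partial isometry `w` with `w* w = Δ(p)`, `w w* = p ⊗ 1`
commuting with the target operators of both legs.
-/

set_option linter.all false

open scoped InnerProductSpace ENNReal
open Filter Topology ContinuousLinearMap
open Vale.Agent.P092.H160 Vale.Agent.P092.H103 Vale.Agent.P092.H962

namespace Vale.Agent.P092.H458.Hon

section sets

variable {I J K Λ : Type} [Group Λ]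

/-- the trivial group acting on a finite set -/
def triv (I : Type) : FS Unit I I where
  act := 1
  base := id
  bij := by
    constructor
    · rintro ⟨j, x⟩ ⟨k, y⟩ h
      exact Prod.ext h rfl
    · intro z
      exact ⟨(z, ()), rfl⟩

theorem triv_R (u : Unit) : (triv I).R u = 1 := by
  rw [show u = 1 from rfl, map_one]

/-- the right action of `Λ × Λ` -/
def fs (I J K Λ : Type) [Group Λ] :
    FS (Unit × (Λ × Λ)) (I × ((J × Λ) × (K × Λ))) (I × (J × K)) :=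
  (triv I).prod ((FS.mat J Λ).prod (FS.mat K Λ))

theorem fs_base (q : I × (J × K)) : (fs I J K Λ).base q = (q.1, ((q.2.1, 1), (q.2.2, 1))) := rfl

theorem fs_R (u : Unit) (s t : Λ) : (fs I J K Λ).R (u, (s, t)) =
    tens 1 (tens ((FS.mat J Λ).R s) ((FS.mat K Λ).R t)) := by
  rw [fs, FS.prod_R, FS.prod_R, triv_R]

theorem JT_JT (x : Ell2 (I × Λ) →L[ℂ] Ell2 (I × Λ)) : JT (JT x) = x := by
  ext1 u
  rw [H58.JT_apply, H58.JT_apply, H58.jv_jv, H58.jv_jv]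

/-- the target operators of the two legs -/
def Sg (I J K Λ : Type) [Group Λ] : Set (Ell2 (I × ((J × Λ) × (K × Λ))) →L[ℂ]
    Ell2 (I × ((J × Λ) × (K × Λ)))) :=
  {T | (∃ y : Ell2 (J × Λ) →L[ℂ] Ell2 (J × Λ), EqM y ∧ T = R1T I K y) ∨
    ∃ z : Ell2 (K × Λ) →L[ℂ] Ell2 (K × Λ), EqM z ∧ T = R2T I J z}

theorem Sg_adj : ∀ s ∈ Sg I J K Λ, adjoint s ∈ Sg I J K Λ := by
  rintro _ (⟨y, hy, rfl⟩ | ⟨z, hz, rfl⟩)
  · exact Or.inl ⟨adjoint y, hy.adj, R1T_adj y⟩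
  · exact Or.inr ⟨adjoint z, hz.adj, R2T_adj z⟩

theorem tens_lam_eqM (s : Λ) : EqM (tens (1 : Ell2 I →L[ℂ] Ell2 I) (lam s)) := by
  intro t v
  have h1 : tens (1 : Ell2 I →L[ℂ] Ell2 I) (lam s) * (FS.mat I Λ).R t =
      (FS.mat I Λ).R t * tens (1 : Ell2 I →L[ℂ] Ell2 I) (lam s) := by
    rw [FS.mat_R, ← tens_mul, ← tens_mul, rho_lam]
  exact congrArg (fun T : Ell2 (I × Λ) →L[ℂ] Ell2 (I × Λ) => T v) h1

theorem Cc_eqv [Fintype J] [Fintype K] {x : Ell2 (I × ((J × Λ) × (K × Λ))) →L[ℂ] Ell2 (I × ((J × Λ) × (K × Λ)))}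
    (hx : Eq.Cc (Sg I J K Λ) x) : Eqv (fs I J K Λ).R (fs I J K Λ).R x := by
  rintro ⟨u, s, t⟩ v
  have h1 : (fs I J K Λ).R (u, (s, t)) =
      R1T I K (tens 1 (lam s)) * R2T I J (tens 1 (lam t)) := by
    rw [fs_R, R1T, R2T, ← H58.JT_R, ← H58.JT_R, JT_JT, JT_JT, ← tens_mul, ← tens_mul, one_mul,
      mul_one, one_mul]
  have h2 : x * (fs I J K Λ).R (u, (s, t)) = (fs I J K Λ).R (u, (s, t)) * x := by
    rw [h1, ← mul_assoc, hx _ (Or.inl ⟨_, tens_lam_eqM s, rfl⟩), mul_assoc,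
      hx _ (Or.inr ⟨_, tens_lam_eqM t, rfl⟩), mul_assoc]
  exact congrArg (fun T : Ell2 (I × ((J × Λ) × (K × Λ))) →L[ℂ]
    Ell2 (I × ((J × Λ) × (K × Λ))) => T v) h2

theorem Cc_faithful [Fintype J] [Fintype K] {x : Ell2 (I × ((J × Λ) × (K × Λ))) →L[ℂ] Ell2 (I × ((J × Λ) × (K × Λ)))}
    (hx : Eq.Cc (Sg I J K Λ) x) (h : ∀ q, x (dl ((fs I J K Λ).base q)) = 0) : x = 0 :=
  (fs I J K Λ).ext_base (fs I J K Λ) (Cc_eqv hx) (fun s u => by
    rw [ContinuousLinearMap.zero_apply, ContinuousLinearMap.zero_apply, map_zero]) fun q => by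
    rw [h, ContinuousLinearMap.zero_apply]

theorem Cc_trace [Fintype I] [Fintype J] [Fintype K]
    {x y : Ell2 (I × ((J × Λ) × (K × Λ))) →L[ℂ] Ell2 (I × ((J × Λ) × (K × Λ)))}
    (hx : Eq.Cc (Sg I J K Λ) x) (hy : Eq.Cc (Sg I J K Λ) y) :
    ∑ q, ⟪(dl ((fs I J K Λ).base q) : Ell2 (I × ((J × Λ) × (K × Λ)))),
        (x * y) (dl ((fs I J K Λ).base q))⟫_ℂ =
      ∑ q, ⟪(dl ((fs I J K Λ).base q) : Ell2 (I × ((J × Λ) × (K × Λ)))),
        (y * x) (dl ((fs I J K Λ).base q))⟫_ℂ :=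
  (fs I J K Λ).tr_comm (fs I J K Λ) (Cc_eqv hy) (Cc_eqv hx)

/-! ### Trivial centre -/

theorem JT_mu [Fintype I] (j j' : I) (s a : Λ) :
    JT (H58.mu j j' s) (dl (j', a) : Ell2 (I × Λ)) = dl (j, a * s⁻¹) := by
  have h1 : ∀ (a : I × Λ), H58.jv (dl a : Ell2 (I × Λ)) = dl (a.1, a.2⁻¹) := by
    intro a
    rw [H58.jv, cj_dl, rei_dl]
    rfl
  rw [H58.JT_apply, h1, H58.mu_dl_self, h1]
  simp

theorem JT_mu_ne [Fintype I] {j j' j'' : I} (h : j' ≠ j'') (s a : Λ) :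
    JT (H58.mu j j' s) (dl (j'', a) : Ell2 (I × Λ)) = 0 := by
  have h1 : ∀ (a : I × Λ), H58.jv (dl a : Ell2 (I × Λ)) = dl (a.1, a.2⁻¹) := by
    intro a
    rw [H58.jv, cj_dl, rei_dl]
    rfl
  rw [H58.JT_apply, h1, H58.mu_dl_ne h, H58.jv, cj_zero, map_zero]

/-- left translations -/
noncomputable def Lf (J K : Type) (i i' : I) (s t : Λ) :
    Ell2 (I × ((J × Λ) × (K × Λ))) →L[ℂ] Ell2 (I × ((J × Λ) × (K × Λ))) :=
  tens (H58.eu i i') (tens (tens 1 (lam s)) (tens 1 (lam t)))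

theorem lam_JT [Fintype J] {y : Ell2 (J × Λ) →L[ℂ] Ell2 (J × Λ)} (hy : EqM y) (s : Λ) :
    tens 1 (lam s) * JT y = JT y * tens 1 (lam s) := by
  rw [← H58.JT_R, ← H58.JT_mul, ← H58.JT_mul]
  congr 1
  ext1 v
  exact (hy s v).symm

theorem Lf_Cc [Fintype I] [Fintype J] [Fintype K] (i i' : I) (s t : Λ) : Eq.Cc (Sg I J K Λ) (Lf J K i i' s t) := by
  rintro _ (⟨y, hy, rfl⟩ | ⟨z, hz, rfl⟩)
  · rw [Lf, R1T, ← tens_mul, ← tens_mul, ← tens_mul, ← tens_mul, lam_JT hy, one_mul, one_mul,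
      mul_one, mul_one]
  · rw [Lf, R2T, ← tens_mul, ← tens_mul, ← tens_mul, ← tens_mul, lam_JT hz, one_mul, one_mul,
      mul_one, mul_one]

theorem Lf_dl [Fintype I] (i i' : I) (s t : Λ) (j : J) (k : K) (a b : Λ) :
    Lf J K i i' s t (dl (i', ((j, a), (k, b)))) = dl (i, ((j, s * a), (k, t * b))) := by
  rw [Lf, tens_dl, H58.eu_apply, dl_self, one_smul, tens_dl, tens_dl, tens_dl, lam_dl, lam_dl,
    one_apply_eq_self, one_apply_eq_self, ← dl_prod, ← dl_prod, ← dl_prod, ← dl_prod]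

theorem Lf_dl_ne [Fintype I] {i i' i'' : I} (h : i' ≠ i'') (s t : Λ) (q : (J × Λ) × (K × Λ)) :
    Lf J K i i' s t (dl (i'', q)) = 0 := by
  rw [Lf, tens_dl, H58.eu_apply, dl_ne h, zero_smul, tv_zero_left]

theorem Lf_adj [Fintype I] (i i' : I) (s t : Λ) :
    adjoint (Lf J K i i' s t) = Lf J K i' i s⁻¹ t⁻¹ := by
  rw [Lf, adjoint_tens, adjoint_tens, adjoint_tens, adjoint_tens, H58.adj_eu, adjoint_lam,
    adjoint_lam, adjoint_one, adjoint_one, Lf]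

theorem R1_dl [Fintype J] (j j' : J) (s : Λ) (i : I) (k : K) (a b : Λ) :
    R1T I K (H58.mu j j' s) (dl (i, ((j', a), (k, b)))) = dl (i, ((j, a * s⁻¹), (k, b))) := by
  rw [R1T, tens_dl, tens_dl, JT_mu, one_apply_eq_self, one_apply_eq_self, ← dl_prod, ← dl_prod]

theorem R1_dl_ne [Fintype J] {j j' j'' : J} (h : j' ≠ j'') (s : Λ) (i : I) (k : K) (a b : Λ) :
    R1T I K (H58.mu j j' s) (dl (i, ((j'', a), (k, b)))) = 0 := by
  rw [R1T, tens_dl, tens_dl, JT_mu_ne h, tv_zero_left, tv_zero_right]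

theorem R2_dl [Fintype K] (k k' : K) (s : Λ) (i : I) (j : J) (a b : Λ) :
    R2T I J (H58.mu k k' s) (dl (i, ((j, a), (k', b)))) = dl (i, ((j, a), (k, b * s⁻¹))) := by
  rw [R2T, tens_dl, tens_dl, JT_mu, one_apply_eq_self, one_apply_eq_self, ← dl_prod, ← dl_prod]

theorem R2_dl_ne [Fintype K] {k k' k'' : K} (h : k' ≠ k'') (s : Λ) (i : I) (j : J) (a b : Λ) :
    R2T I J (H58.mu k k' s) (dl (i, ((j, a), (k'', b)))) = 0 := by
  rw [R2T, tens_dl, tens_dl, JT_mu_ne h, tv_zero_right, tv_zero_right]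

theorem mu_eqM [Fintype I] (i j : I) (s : Λ) : EqM (H58.mu i j s : Ell2 (I × Λ) →L[ℂ] _) :=
  H58.cm_iff.1 (H58.mu_cm _ _ _)

theorem vanish_of_inv {Y Z : Type} [Group Z] {u : Ell2 Y} {e : Z → Y} (he : Function.Injective e)
    {a : Z} (ha : Set.Infinite {y : Z | ∃ h, y = h * a * h⁻¹})
    (hc : ∀ h : Z, u (e (h * a * h⁻¹)) = u (e a)) : u (e a) = 0 := by
  by_contra hne
  have h1 : Summable fun y : Z => ‖u (e y)‖ ^ 2 := (summable_sq u).comp_injective he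
  have h2 := h1.tendsto_cofinite_zero
  have hpos : 0 < ‖u (e a)‖ ^ 2 := by positivity
  have h3 := h2.eventually (gt_mem_nhds hpos)
  rw [Filter.eventually_cofinite] at h3
  refine ha (h3.subset ?_)
  rintro y ⟨s, rfl⟩
  change ¬ (‖u (e (s * a * s⁻¹))‖ ^ 2 < ‖u (e a)‖ ^ 2)
  rw [hc]
  exact lt_irrefl _

/-- the commutant has trivial centre -/
theorem Cc_fac [Fintype I] [Fintype J] [Fintype K]
    (hΛ : ∀ s : Λ, s ≠ 1 → Set.Infinite {y : Λ | ∃ h, y = h * s * h⁻¹})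
    (z : Ell2 (I × ((J × Λ) × (K × Λ))) →L[ℂ] Ell2 (I × ((J × Λ) × (K × Λ))))
    (hz : Eq.Cc (Sg I J K Λ) z) (hc : ∀ y, Eq.Cc (Sg I J K Λ) y → z * y = y * z) :
    ∃ c : ℂ, z = c • (1 : Ell2 (I × ((J × Λ) × (K × Λ))) →L[ℂ] _) := by
  classical
  have hL : ∀ i i' s t v, z (Lf J K i i' s t v) = Lf J K i i' s t (z v) := fun i i' s t v =>
    congrArg (fun T : Ell2 (I × ((J × Λ) × (K × Λ))) →L[ℂ] Ell2 (I × ((J × Λ) × (K × Λ))) => T v)
      (hc _ (Lf_Cc i i' s t))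
  have h1R : ∀ j j' s v, z (R1T I K (H58.mu j j' s) v) = R1T I K (H58.mu j j' s) (z v) :=
    fun j j' s v =>
    congrArg (fun T : Ell2 (I × ((J × Λ) × (K × Λ))) →L[ℂ] Ell2 (I × ((J × Λ) × (K × Λ))) => T v)
      (hz _ (Or.inl ⟨_, mu_eqM _ _ _, rfl⟩))
  have h2R : ∀ k k' s v, z (R2T I J (H58.mu k k' s) v) = R2T I J (H58.mu k k' s) (z v) :=
    fun k k' s v =>
    congrArg (fun T : Ell2 (I × ((J × Λ) × (K × Λ))) →L[ℂ] Ell2 (I × ((J × Λ) × (K × Λ))) => T v)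
      (hz _ (Or.inr ⟨_, mu_eqM _ _ _, rfl⟩))
  have key : ∀ i j k, ∃ c : ℂ, z (dl (i, ((j, 1), (k, 1)))) = c • dl (i, ((j, 1), (k, 1))) := by
    intro i j k
    set v := z (dl (i, ((j, 1), (k, 1)))) with hv
    have hinv : ∀ s t, v = Lf J K i i s t (R1T I K (H58.mu j j s) (R2T I J (H58.mu k k t) v)) := by
      intro s t
      rw [hv, ← h2R, ← h1R, ← hL, R2_dl, R1_dl, Lf_dl]
      simp
    have hq : ∀ s t q, v q = ⟪R2T I J (H58.mu k k t⁻¹) (R1T I K (H58.mu j j s⁻¹)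
        (Lf J K i i s⁻¹ t⁻¹ (dl q))), v⟫_ℂ := by
      intro s t q
      rw [← inner_dl]
      conv_lhs => rw [hinv s t]
      rw [← adjoint_inner_left, Lf_adj, ← adjoint_inner_left, R1T_adj, H58.adj_mu,
        ← adjoint_inner_left, R2T_adj, H58.adj_mu]
    have hi : ∀ i' q, i' ≠ i → v (i', q) = 0 := by
      intro i' q h
      rw [hq 1 1, Lf_dl_ne h.symm, map_zero, map_zero, inner_zero_left]
    have hj : ∀ j' a r, j' ≠ j → v (i, ((j', a), r)) = 0 := by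
      rintro j' a ⟨k', b⟩ h
      rw [hq 1 1, Lf_dl, R1_dl_ne h.symm, map_zero, inner_zero_left]
    have hk : ∀ k' a b, k' ≠ k → v (i, ((j, a), (k', b))) = 0 := by
      rintro k' a b h
      rw [hq 1 1, Lf_dl, R1_dl, R2_dl_ne h.symm, inner_zero_left]
    have hval : ∀ s t a b, v (i, ((j, s * a * s⁻¹), (k, t * b * t⁻¹))) =
        v (i, ((j, a), (k, b))) := by
      intro s t a b
      rw [hq s t, Lf_dl, R1_dl, R2_dl, inner_dl]
      congr 1
      simp [mul_assoc]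
    have ha : ∀ a b, a ≠ 1 → v (i, ((j, a), (k, b))) = 0 := by
      intro a b h
      refine vanish_of_inv (u := v) (e := fun y : Λ => (i, ((j, y), (k, b)))) ?_ (hΛ a h) ?_
      · intro y y' hy
        simpa using hy
      · intro s
        have := hval s 1 a b
        simpa using this
    have hb : ∀ b, b ≠ 1 → v (i, ((j, 1), (k, b))) = 0 := by
      intro b h
      refine vanish_of_inv (u := v) (e := fun y : Λ => (i, ((j, 1), (k, y)))) ?_ (hΛ b h) ?_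
      · intro y y' hy
        simpa using hy
      · intro s
        have := hval 1 s 1 b
        simpa using this
    refine ⟨v (i, ((j, 1), (k, 1))), ?_⟩
    apply ext_inner_dl
    rintro ⟨i', ⟨j', a⟩, ⟨k', b⟩⟩
    rw [lp.coeFn_smul, Pi.smul_apply, smul_eq_mul]
    by_cases h1 : i' = i
    · subst h1
      by_cases h2 : j' = j
      · subst h2
        by_cases h3 : k' = k
        · subst h3
          by_cases h4 : a = 1
          · subst h4
            by_cases h5 : b = 1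
            · subst h5
              rw [dl_self, mul_one]
            · rw [hb b h5, dl_ne (by simpa using h5), mul_zero]
          · rw [ha a b h4, dl_ne (by
              intro h
              exact h4 (by simpa using congrArg (fun p => p.2.1.2) h)), mul_zero]
        · rw [hk k' a b h3, dl_ne (by
            intro h
            exact h3 (by simpa using congrArg (fun p => p.2.2.1) h)), mul_zero]
      · rw [hj j' a _ h2, dl_ne (by
          intro h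
          exact h2 (by simpa using congrArg (fun p => p.2.1.1) h)), mul_zero]
    · rw [hi i' _ h1, dl_ne (by
        intro h
        exact h1 (by simpa using congrArg (fun p => p.1) h)), mul_zero]
  by_cases hne : Nonempty (I × (J × K))
  · obtain ⟨i0, j0, k0⟩ := hne
    obtain ⟨c, hcc⟩ := key i0 j0 k0
    refine ⟨c, ?_⟩
    apply op_ext
    rintro ⟨i, ⟨j, a⟩, ⟨k, b⟩⟩
    have h1 : (dl (i, ((j, a), (k, b))) : Ell2 (I × ((J × Λ) × (K × Λ)))) =
        Lf J K i i0 a b (R1T I K (H58.mu j j0 1) (R2T I J (H58.mu k k0 1)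
          (dl (i0, ((j0, 1), (k0, 1)))))) := by
      rw [R2_dl, R1_dl, Lf_dl]
      simp
    conv_lhs => rw [h1]
    rw [hL, h1R, h2R, hcc, map_smul, map_smul, map_smul, ← h1]
    rfl
  · refine ⟨0, ?_⟩
    apply op_ext
    rintro ⟨i, ⟨j, a⟩, ⟨k, b⟩⟩
    exact (hne ⟨(i, (j, k))⟩).elim

end sets

/-! ### The honest left leg -/

section L1

variable {I J K Λ : Type} [Group Λ]

/-- `(i, (u, v)) ↦ ((i, u), v)` -/
def eA (I X Y : Type) : I × (X × Y) ≃ (I × X) × Y := (Equiv.prodAssoc I X Y).symm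

/-- `p ⊗ 1` -/
noncomputable def L1 (J K : Type) (x : Ell2 (I × Λ) →L[ℂ] Ell2 (I × Λ)) :
    Ell2 (I × ((J × Λ) × (K × Λ))) →L[ℂ] Ell2 (I × ((J × Λ) × (K × Λ))) :=
  rei (eA I (J × Λ) (K × Λ)).symm ∘L (tens (Lm J x) 1 ∘L rei (eA I (J × Λ) (K × Λ)))

theorem rei_eA {X Y : Type} (u : Ell2 I) (v : Ell2 X) (w : Ell2 Y) :
    rei (eA I X Y) (tv u (tv v w)) = tv (tv u v) w := by
  apply ext_inner_dl
  rintro ⟨⟨i, x⟩, y⟩
  change u i * (v x * w y) = u i * v x * w y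
  ring

theorem eA_tens {X Y : Type} (A : Ell2 I →L[ℂ] Ell2 I) (B : Ell2 X →L[ℂ] Ell2 X)
    (C : Ell2 Y →L[ℂ] Ell2 Y) (v : Ell2 (I × (X × Y))) :
    rei (eA I X Y) (tens A (tens B C) v) = tens (tens A B) C (rei (eA I X Y) v) := by
  have h : rei (eA I X Y) ∘L tens A (tens B C) = tens (tens A B) C ∘L rei (eA I X Y) := by
    apply op_ext
    rintro ⟨i, x, y⟩
    rw [comp_apply, comp_apply, dl_prod, dl_prod, tens_tv, tens_tv, rei_eA, rei_eA, tens_tv,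
      tens_tv]
  exact congrArg (fun T : Ell2 (I × (X × Y)) →L[ℂ] Ell2 ((I × X) × Y) => T v) h

theorem eA_R1T (y : Ell2 (J × Λ) →L[ℂ] Ell2 (J × Λ)) (v : Ell2 (I × ((J × Λ) × (K × Λ)))) :
    rei (eA I (J × Λ) (K × Λ)) (R1T I K y v) =
      tens (Rm I y) 1 (rei (eA I (J × Λ) (K × Λ)) v) := eA_tens _ _ _ _

theorem eA_R2T (z : Ell2 (K × Λ) →L[ℂ] Ell2 (K × Λ)) (v : Ell2 (I × ((J × Λ) × (K × Λ)))) :
    rei (eA I (J × Λ) (K × Λ)) (R2T I J z v) =
      tens 1 (JT z) (rei (eA I (J × Λ) (K × Λ)) v) := by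
  rw [R2T, eA_tens, tens_one]

theorem eA_L1 (x : Ell2 (I × Λ) →L[ℂ] Ell2 (I × Λ)) (v : Ell2 (I × ((J × Λ) × (K × Λ)))) :
    rei (eA I (J × Λ) (K × Λ)) (L1 J K x v) =
      tens (Lm J x) 1 (rei (eA I (J × Λ) (K × Λ)) v) := by
  change rei _ (rei _ (tens (Lm J x) 1 (rei _ v))) = _
  rw [rei_self_symm]

theorem eA_inj {X Y : Type} {u v : Ell2 (I × (X × Y))} (h : rei (eA I X Y) u = rei (eA I X Y) v) :
    u = v := by
  have := congrArg (rei (eA I X Y).symm) h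
  rwa [rei_symm_self, rei_symm_self] at this

theorem L1_Cc {x : Ell2 (I × Λ) →L[ℂ] Ell2 (I × Λ)} (hx : EqM x) :
    Eq.Cc (Sg I J K Λ) (L1 J K x) := by
  rintro _ (⟨y, hy, rfl⟩ | ⟨z, hz, rfl⟩)
  · ext1 v
    apply eA_inj
    change rei _ (L1 J K x (R1T I K y v)) = rei _ (R1T I K y (L1 J K x v))
    rw [eA_L1, eA_R1T, eA_R1T, eA_L1, ← mul_ap, ← mul_ap, ← tens_mul, ← tens_mul, comm_LR hx hy]
  · ext1 v
    apply eA_inj
    change rei _ (L1 J K x (R2T I J z v)) = rei _ (R2T I J z (L1 J K x v))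
    rw [eA_L1, eA_R2T, eA_R2T, eA_L1, ← mul_ap, ← mul_ap, ← tens_mul, ← tens_mul, one_mul,
      one_mul, mul_one, mul_one]

theorem L1_mul (x y : Ell2 (I × Λ) →L[ℂ] Ell2 (I × Λ)) : L1 J K (x * y) = L1 J K x * L1 J K y := by
  ext1 v
  apply eA_inj
  change rei _ (L1 J K (x * y) v) = rei _ (L1 J K x (L1 J K y v))
  rw [eA_L1, eA_L1, eA_L1, ← mul_ap, ← tens_mul, one_mul, Lm_mul]

theorem inner_eA {X Y : Type} (u v : Ell2 (I × (X × Y))) :
    ⟪rei (eA I X Y) u, rei (eA I X Y) v⟫_ℂ = ⟪u, v⟫_ℂ := inner_rei _ _ _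

theorem L1_adj (x : Ell2 (I × Λ) →L[ℂ] Ell2 (I × Λ)) :
    adjoint (L1 J K x) = L1 J K (adjoint x) := by
  refine (ContinuousLinearMap.eq_adjoint_iff _ _).mpr (fun u v => ?_) |>.symm
  rw [← inner_eA, eA_L1, ← inner_eA u, eA_L1, ← Lm_adj]
  have h3 : tens (adjoint (Lm J x)) (1 : Ell2 (K × Λ) →L[ℂ] Ell2 (K × Λ)) =
      adjoint (tens (Lm J x) 1) := by rw [adjoint_tens, adjoint_one]
  rw [h3, adjoint_inner_left]

theorem L1_diag (x : Ell2 (I × Λ) →L[ℂ] Ell2 (I × Λ)) (i : I) (j : J) (k : K) (a b : Λ) :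
    L1 J K x (dl (i, ((j, a), (k, b)))) (i, ((j, a), (k, b))) = x (dl (i, a)) (i, a) := by
  change tens (Lm J x) 1 (rei (eA I (J × Λ) (K × Λ)) (dl (i, ((j, a), (k, b)))))
    ((i, (j, a)), (k, b)) = _
  rw [rei_dl]
  change tens (Lm J x) 1 (dl ((i, (j, a)), (k, b))) ((i, (j, a)), (k, b)) = _
  rw [tens_dl]
  change Lm J x (dl (i, (j, a))) (i, (j, a)) * (dl (k, b) : Ell2 (K × Λ)) (k, b) = _
  rw [Lm_coord, dl_self, dl_self, mul_one, mul_one]

/-- **the equivalence of `Δ(p)` and `p ⊗ 1`** -/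
theorem exists_w [Fintype I] [Fintype J] [Fintype K]
    (hΛ : ∀ s : Λ, s ≠ 1 → Set.Infinite {y : Λ | ∃ h, y = h * s * h⁻¹})
    {p : Ell2 (I × Λ) →L[ℂ] Ell2 (I × Λ)} (hp : EqM p) (hpa : adjoint p = p) (hpp : p * p = p) :
    ∃ w, Eq.Cc (Sg I J K Λ) w ∧ adjoint w * w = VT J K p ∧ w * adjoint w = L1 J K p := by
  refine Eq.exists_equiv Sg_adj (Cc_fac hΛ) (ξ := fun q : I × (J × K) => dl ((fs I J K Λ).base q))
    (fun x y hx hy => Cc_trace hx hy) (fun x hx h => Cc_faithful hx h) (L1_Cc hp) ?_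
    (by rw [L1_adj, hpa]) (by rw [VT_adj, hpa]) (by rw [← L1_mul, hpp]) (by rw [← VT_mul, hpp]) ?_
  · rintro _ (⟨y, hy, rfl⟩ | ⟨z, hz, rfl⟩)
    · exact comm_VR1 hp hy
    · exact comm_VR2 hp hz
  · refine Finset.sum_congr rfl fun q _ => ?_
    rw [inner_dl, inner_dl, fs_base, L1_diag, VT_coord, dl_self, mul_one]

end L1

end Vale.Agent.P092.H458.Hon
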